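import Crest.Agent.X262.KV.Fc
import Crest.Agent.X262.FG.Fac
import Crest.Agent.X262.FG.Bert
import Crest.Agent.X262.FG.Prm1
import Crest.Agent.X262.Loc95.Kv
import Crest.Agent.X262.Surf.Defs

/-!
# Row 262, KV (helper68), part 4: vanishing on surfaces

* `bnum_single` : intersection numbers with a component are computed on the component;
* `finrank_res` : the restriction sequence;
* `kP_eq_kC`    : the two canonical divisors of a curve agree;
* `h0_step`     : `2 h⁰(D) ≥ 2 h⁰(D - C) + C · (K + C + 2 N)` if `D ≥ K + C + N`, `N` nef and big;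
* `kvStmt`      : `Surf.KVStmt`.
-/

set_option autoImplicit false

open WithZero Filter Module
open scoped KaehlerDifferential

noncomputable section

namespace Crest.Agent.X262.KV

open Crest.Agent.X277 Crest.Agent.X277.Lef Crest.Agent.X277.AN.G1 Crest.Agent.X277.BD
open Crest.Agent.X277.BD.Br (At oP kP)
open Crest.Agent.X277.Res.Log (Bd On un_iff)
open Crest.Agent.X277.Link (Plc IsPD)
open Crest.Agent.X262.FG Crest.Agent.X262.FG.Prm5

variable {F E : Type} [Field F] [Algebra ℂ F] [Field E] [Algebra ℂ E] {P : PModel ℂ F} {n : ℕ}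
  {B : Bd P n} {e : B.ι} {p : Plc ℂ F E} {D : BD ℂ F}

theorem val_pl (hp : p.v = B.v e) : D.val (pl p).V = 1 ↔ od B e D = 0 := by
  rw [← ord_eq_od hp.symm p.triv]
  exact ord_eq_zero.symm

/-- the restriction of sections -/
def resL (p : Plc ℂ F E) (hD : D.val (pl p).V = 1) : D.Sec →ₗ[ℂ] E where
  toFun s := p.r s
  map_add' s t := p.r_add (Pl.mem_of_sec hD s.2) (Pl.mem_of_sec hD t.2)
  map_smul' c s := by
    rw [Submodule.coe_smul, Algebra.smul_def, p.r_mul (p.triv c) (Pl.mem_of_sec hD s.2), p.r_alg,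
      RingHom.id_apply, Algebra.smul_def]

theorem range_resL_le (hD : D.val (pl p).V = 1) :
    LinearMap.range (resL p hD) ≤ ((pl p).res D).Sec := by
  rintro _ ⟨s, rfl⟩
  exact (pl_r p s ▸ Pl.r_mem_Sec hD s.2 : p.r s ∈ _)

variable [Algebra.EssFiniteType ℂ F]

open Classical in
/-- **the restriction sequence** -/
theorem finrank_res (hp : p.v = B.v e) (hP : D ∈ Br.On P) (hD : D.val (pl p).V = 1) :
    finrank ℂ D.Sec = finrank ℂ (D - dvs B (Pi.single e 1)).Sec +
      finrank ℂ (LinearMap.range (resL p hD)) := by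
  have h0 := vl_eq_one_iff.2 ((val_pl hp).1 hD)
  rw [← (resL p hD).finrank_range_add_finrank_ker, add_comm, add_left_inj,
    ← Submodule.finrank_map_subtype_eq]
  refine congrArg (fun W : Submodule ℂ F => finrank ℂ W) (Submodule.ext fun s => ?_)
  refine ⟨?_, fun hs => ?_⟩
  · rintro ⟨s, hs, rfl⟩
    refine mem_Sec_sub_single hP s.2 ?_
    rw [h0, ← hp]
    exact (p.r_eq_zero (Pl.mem_of_sec hD s.2)).1 hs
  · refine ⟨⟨s, Sec_mono (sub_le_self _ (dvs_nonneg fun e' => ?_)) hs⟩, p.r_of_lt ?_, rfl⟩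
    · by_cases h : e' = e <;> simp [h]
    · have h1 := lt_vl_of_mem hs
      rwa [h0, ← hp] at h1

open Classical in
/-- intersection numbers with a component -/
theorem bnum_single [Algebra.EssFiniteType ℂ E] (hp : p.v = B.v e) {l : List (BD ℂ F)}
    (hl : ∀ a ∈ l, a ∈ Br.On P) :
    bnum (dvs B (Pi.single e 1) :: l) = bnum (l.map (pl p).rs) := by
  have hv : IsPD P p.v := hp ▸ B.isPD e
  have h1 : Pst.Prm (oP P) (pl p).V := prm_of_isPD hv
  rw [Geo.bnum_cyc (isMod_oP P) (car_of_on (dvs_mem B _)) (fun a ha => car_of_on (hl a ha))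
    (T := {(pl p).V}) (by simpa using h1), Finset.sum_singleton,
    Geo.dg_eq_pl h1.dvs (fun c => (pl_r p _).trans (p.r_alg c)) p.surj]
  · have h2 : Geo.od (pl p).V = ord p.v p.triv := od_eq hv
    rw [h2, ord_eq_od hp.symm, od_dvs, Pi.single_eq_same, one_mul]
  · intro V hV h0
    have h2 := isPD_of_prm hV
    by_contra h3
    refine h0 ?_
    by_cases h4 : ∃ e', B.v e' = Neg.nv V
    · obtain ⟨e', h4⟩ := h4
      refine (ord_eq_od h4 _ _).trans ?_
      rw [od_dvs, Pi.single_eq_of_ne]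
      rintro rfl
      refine h3 (Finset.mem_singleton.2 ?_)
      rw [← Geo.rz_nv hV.dvs]
      simp only [← h4, ← hp]
      rfl
    · exact ord_dvs_of_ne h2 (not_exists.1 h4) _

/-- the derivation which belongs to a differential -/
def der1 (b : Basis (Fin 1) F Ω[F⁄ℂ]) : Derivation ℂ F F :=
  (b.coord 0).compDer (KaehlerDifferential.D ℂ F)

omit [Algebra.EssFiniteType ℂ F] in
theorem jac_one (b : Basis (Fin 1) F Ω[F⁄ℂ]) (z : Fin 1 → F) : jac b z = der1 b (z 0) := by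
  rw [jac, Basis.det_apply, Matrix.det_fin_one, Basis.toMatrix_apply]
  rfl

omit [Algebra.EssFiniteType ℂ F] in
theorem der1_ne (P : PModel ℂ F) (b : Basis (Fin 1) F Ω[F⁄ℂ]) : der1 b ≠ 0 := fun h => by
  obtain ⟨z, hz⟩ := exists_crd b (Classical.arbitrary (Pts P))
  exact hz.jac_ne (lp_fin _) b (by rw [jac_one, h]; rfl)

/-- the canonical divisor of a curve -/
theorem kP_eq_kC (P : PModel ℂ F) (b : Basis (Fin 1) F Ω[F⁄ℂ]) : kP P b = Loc.kC (der1 b) := by
  have hd := dim_of_basis b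
  refine le_antisymm (fun V => ?_) ((Loc.le_iff_ordP hd).2 fun Q => ?_)
  · obtain ⟨x, hx⟩ := Br.exists_ov' P V
    obtain ⟨z, hz⟩ := exists_crd b x
    rw [← Br.at_kP b hz V hx, jac_one]
    exact Loc.der_le_val hd (der1_ne P b) (hx _ (hz.mem 0))
  · have h1 : IsPD P Q.v := Loc.nv_rzP Q ▸
      isPD_of_prm ((Loc.prm_iff_ne_top hd _).2 (Loc.rzP_ne_top Q))
    obtain ⟨x, hx⟩ := h1.exists_on
    obtain ⟨z, hz⟩ := exists_crd b x
    obtain ⟨f, hf, h2⟩ := Loc.exists_der_eq hd (der1_ne P b) (Loc.rzP Q)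
    rw [Loc.ordP_le_iff, ← h2, ← Br.at_kP b hz (Loc.rzP Q) fun g hg => hx g hg, Loc.rzP_le_iff]
    exact (jac_one b fun _ => f) ▸ Res.Log.v_jac_le_of_loc b (h1.loc_lp hx) hz fun _ => hf

/-- Riemann's inequality -/
theorem riemann (P : PModel ℂ F) (b : Basis (Fin 1) F Ω[F⁄ℂ]) (a : BD ℂ F) :
    2 * bnum [a] - bnum [kP P b] ≤ 2 * finrank ℂ a.Sec := by
  have hd := dim_of_basis b
  have h1 := Loc.riemann_le hd a
  rw [kP_eq_kC, Loc.deg_kC hd (der1_ne P b)]
  omega

open Classical in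
/-- **one step** -/
theorem h0_step {B : Bd P 2} (e : B.ι) (b : Surf.B2 F) {N : BD ℂ F} (hD : D ∈ Br.On P)
    (hNP : N ∈ Br.On P) (hN : Nef N) (hB : Big N) (hle : kP P b + dvs B (Pi.single e 1) + N ≤ D)
    (h1 : od B e D = od B e (kP P b + dvs B (Pi.single e 1) + N)) :
    2 * Surf.h0 (D - dvs B (Pi.single e 1)) +
      bnum [dvs B (Pi.single e 1), kP P b + dvs B (Pi.single e 1) + 2 • N] ≤ 2 * Surf.h0 D := by
  obtain ⟨b', E, _, _, ⟨Φ⟩⟩ := facStmt F 1 P B e
  have := essFiniteType Φ.P'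
  obtain ⟨u, hu, h2⟩ := Br.lin_kP (P := P) b b'
  obtain ⟨g, hg, h3⟩ := exists_od_zero B e N
  have h4 : od B e (kP P b' + dvs B (Pi.single e 1)) = 0 := by simp [Φ.od_K]
  have hD' : D - pr ℂ u - pr ℂ g ∈ Br.On P := sub_mem (sub_mem hD (Br.pr_mem u)) (Br.pr_mem g)
  have h5 : od B e (D - pr ℂ u - pr ℂ g) = 0 := by
    simp only [h2, map_add, map_sub] at h1 h3 h4 ⊢
    omega
  have hl : ∀ a : BD ℂ F, Lin (a - pr ℂ u - pr ℂ g) a := fun a =>
    ⟨(u * g)⁻¹, inv_ne_zero (mul_ne_zero hu hg), by rw [pr_inv, pr_mul hu hg]; abel⟩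
  have hg' : Lin (N - pr ℂ g) N := ⟨g⁻¹, inv_ne_zero hg, by rw [pr_inv, sub_eq_add_neg]⟩
  have h6 := finrank_res Φ.v_eq hD' ((val_pl Φ.v_eq).2 h5)
  have h7 : (kP Φ.P' Φ.b' + (pl Φ.p).res (N - pr ℂ g)).Sec ≤
      LinearMap.range (resL Φ.p ((val_pl Φ.v_eq).2 h5)) := fun s' hs' => by
    obtain ⟨s, h7, -, h8⟩ := kvl_nef Φ.p Φ.v_eq Φ.od_K (q := 1) (φ := 0) hD' (hg'.nef hN)
      (hg'.big hB) one_pos (fun _ => by simp) rfl h3 (by
        rw [one_smul, one_smul]
        refine le_of_eq_of_le ?_ (sub_le_sub_right (sub_le_sub_right hle (pr ℂ u)) (pr ℂ g))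
        rw [h2]
        abel) (s' := s') (by
        rwa [pow_one, one_smul, dvs_zero, add_zero,
          Pl.res_add ((val_pl Φ.v_eq).2 h4) ((val_pl Φ.v_eq).2 h3), Φ.res_K])
    exact ⟨⟨s, h7⟩, h8⟩
  have h8 := Submodule.finrank_mono h7
  have h9 := riemann Φ.P' Φ.b' (kP Φ.P' Φ.b' + (pl Φ.p).res (N - pr ℂ g))
  have h10 : bnum [dvs B (Pi.single e 1), kP P b + dvs B (Pi.single e 1)] =
      bnum [kP Φ.P' Φ.b'] := by
    rw [h2, add_right_comm, bnum_add2, bnum_swap _ (pr ℂ u), bnum_pr, add_zero,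
      bnum_single Φ.v_eq (by simpa using add_mem (Br.kP_mem b') (dvs_mem B _)), ← Φ.res_K]
    exact (Pl.lin_rs_res ((val_pl Φ.v_eq).2 h4)).bnum_eq []
  have h11 : bnum [dvs B (Pi.single e 1), N] = bnum [(pl Φ.p).res (N - pr ℂ g)] := by
    rw [bnum_swap, ← hg'.bnum_eq, bnum_swap,
      bnum_single Φ.v_eq (by simpa using sub_mem hNP (Br.pr_mem g))]
    exact (Pl.lin_rs_res ((val_pl Φ.v_eq).2 h3)).bnum_eq []
  generalize finrank ℂ (LinearMap.range (resL Φ.p ((val_pl Φ.v_eq).2 h5))) = r at h6 h8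
  rw [sub_right_comm _ (pr ℂ g), (hl D).finrank, sub_right_comm D (pr ℂ u), (hl _).finrank] at h6
  rw [bnum_add2, bnum_nsmul2, h10, h11, Surf.h0, Surf.h0, h6]
  rw [bnum_add] at h9
  push_cast
  omega

open Classical in
/-- disjoint divisors have intersection number zero -/
theorem bnum_disj {B : Bd P (n + 1)} (e : B.ι) {c : B.ι → ℤ}
    (h : ∀ x : Pts P, On (B.v e) x → ∀ e', On (B.v e') x → c e' = 0) {l : List (BD ℂ F)}
    (hl : ∀ a ∈ l, a ∈ Br.On P) : bnum (dvs B (Pi.single e 1) :: dvs B c :: l) = 0 := by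
  obtain ⟨b', E, _, _, ⟨Φ⟩⟩ := facStmt F n P B e
  have := essFiniteType Φ.P'
  have h1 : (dvs B c).val (pl Φ.p).V = 1 := by
    obtain ⟨x, hx⟩ := B.ne e
    rw [val_pl Φ.v_eq, od_dvs, h x hx e hx]
  have h2 : (pl Φ.p).res (dvs B c) = 0 := ext' fun W => by
    obtain ⟨x, hx⟩ := Br.exists_ov' P ((pl Φ.p).cm W)
    have h3 := at_dvs B c x
    rw [Bd.mon_congr (m' := 0) (h x fun f hf => Φ.v_eq ▸ Pl.cm_le W (hx f hf)), Bd.mon_zero,
      inv_one] at h3
    rw [Pl.val_res h1 (h3 _ hx), Pl.r_one, map_one, val_zero]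
  rw [bnum_single Φ.v_eq (List.forall_mem_cons.2 ⟨dvs_mem B c, hl⟩), List.map_cons,
    (Pl.lin_rs_res h1).bnum_eq, h2, bnum_zero]

omit [Algebra.EssFiniteType ℂ F] in
/-- a general member of a free class is smooth -/
theorem exists_smooth (b : Basis (Fin n) F Ω[F⁄ℂ]) (hD : D ∈ Br.On P) (hf : Free D) :
    ∃ (s : F) (C : Bd P n), s ≠ 0 ∧ D - pr ℂ s = dvs C 1 ∧
      ∀ (x : Pts P) e e', On (C.v e) x → On (C.v e') x → e = e' := by
  obtain ⟨r, t, h0, -, h1⟩ := Br.exists_gn hD hf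
  obtain ⟨u, -, h2⟩ := Bert.exists_not_mem (Bert.sth_bad (bd0 P b) (a := D) (t := t)
    (fun j => h1 ▸ mem_Sec_mxf t j) fun x => (hD x).elim fun g hg => by
      rw [h1] at hg ⊢
      exact hg.exists_mxf ⟨0, h0 0⟩) (U := 1) one_ne_zero
  have h3 : ∀ x g, At D x g → Bert.Tr (bd0 P b) x ((∑ i, u i • t i) / g) := fun x g hg => by
    by_contra h
    exact h2 ⟨x, g, hg, h⟩
  obtain ⟨h4, C, j, c, -, h5, h6⟩ := Bert.exists_bd (bd0 P b) hD h3
  obtain rfl : c = 1 := funext fun e => h5 e fun ⟨e, _⟩ => e.elim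
  refine ⟨_, C, h4, h6, fun x e e' he he' => C.v_injective ?_⟩
  obtain ⟨g, hg⟩ := hD x
  have h7 : ∀ e, On (C.v e) x → C.v e ((∑ i, u i • t i) / g) < 1 := fun e he => by
    have h8 := vl_of_at ((hg.sub (Br.at_pr x h4))) he
    rw [← exp_od, h6, od_dvs, Pi.one_apply] at h8
    rw [← inv_div, map_inv₀, ← h8, ← exp_neg]
    exact Link.exp_neg_one_lt
  exact ((h3 x g hg).eqn (C.isPD e') he' (h7 e' he')).1.eq_of_lt (C.isPD e).nrm
    ((C.isPD e).loc_lp he) (h7 e he)

/-- **Kawamata-Viehweg vanishing on surfaces** -/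
theorem kvStmt : Surf.KVStmt := by
  classical
  intro F _ _ _ P b c hc a ha hN hB
  obtain ⟨m, hm⟩ := (hc _ (add_mem (Br.kP_mem b) ha)).exists
  obtain ⟨s, C, hs, h1, h2⟩ := exists_smooth b (nsmul_mem (Br.oP_mem (P := P)) m)
    (Br.free_oP.nsmul m)
  have key : ∀ T : Finset C.ι, 2 * Surf.h0 (kP P b + a) - Surf.rr P b c (kP P b + a) ≤
      2 * Surf.h0 (kP P b + a + dvs C fun e => if e ∈ T then 1 else 0) -
        Surf.rr P b c (kP P b + a + dvs C fun e => if e ∈ T then 1 else 0) := by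
    intro T
    induction T using Finset.induction_on with
    | empty => simp [show dvs C (fun _ => 0) = 0 from dvs_zero C]
    | insert e T he ih =>
      have h3 : (dvs C fun e' => if e' ∈ insert e T then 1 else 0) =
          (dvs C fun e' => if e' ∈ T then 1 else 0) + dvs C (Pi.single e 1) := by
        rw [← dvs_add]
        congr 1
        funext e'
        by_cases h : e' = e <;> simp [h, he]
      have h4 : bnum [dvs C (Pi.single e 1), dvs C fun e' => if e' ∈ T then 1 else 0] = 0 :=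
        bnum_disj e (fun x hx e' hx' => if_neg (h2 x e e' hx hx' ▸ he)) (by simp)
      have h5 : 0 ≤ dvs C fun e' => if e' ∈ T then 1 else 0 :=
        dvs_nonneg fun e' => by split_ifs <;> simp
      have h6 : od C e (dvs C fun e' => if e' ∈ T then 1 else 0) = 0 := by rw [od_dvs, if_neg he]
      have h7 := dvs_mem C fun e' => if e' ∈ T then 1 else 0
      rw [h3, ← add_assoc]
      generalize (dvs C fun e' => if e' ∈ T then 1 else 0) = Y at ih h4 h5 h6 h7
      have h8 := h0_step (D := kP P b + a + Y + dvs C (Pi.single e 1)) e b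
        (add_mem (add_mem (add_mem (Br.kP_mem b) ha) h7) (dvs_mem C _)) ha hN hB
        (by rw [add_right_comm _ Y, add_right_comm _ a]; exact le_add_of_nonneg_right h5)
        (by simp only [map_add, h6]; ring)
      rw [add_sub_cancel_right] at h8
      unfold Surf.rr at ih ⊢
      generalize dvs C (Pi.single e 1) = Z at h4 h8
      rw [show kP P b + a + Y + Z - kP P b = (kP P b + a + Y - kP P b) + Z by abel, bnum_add2,
        bnum_add _ Z, bnum_add _ Z, bnum_swap _ Z, show kP P b + a + Y - kP P b = a + Y by abel]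
      rw [show kP P b + a + Y - kP P b = a + Y by abel] at ih
      simp only [bnum_add2 Z, bnum_nsmul2 Z, h4] at h8 ⊢
      push_cast at h8
      omega
  have h3 := key Finset.univ
  have h4 : Lin (kP P b + a + m • oP P) (kP P b + a + dvs C 1) := ⟨s, hs, by rw [← h1]; abel⟩
  have h5 : Lin (kP P b + a + m • oP P - kP P b) (kP P b + a + dvs C 1 - kP P b) :=
    ⟨s, hs, by rw [← h1]; abel⟩
  rw [Surf.h0, Surf.rr, h4.finrank, h4.bnum_eq, bnum_swap, h5.bnum_eq, bnum_swap] at hm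
  simp only [Finset.mem_univ, if_true] at h3
  change _ ≤ 2 * Surf.h0 (_ + dvs C 1) - Surf.rr P b c (_ + dvs C 1) at h3
  unfold Surf.h0 Surf.rr at h3 ⊢
  omega

end Crest.Agent.X262.KV
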