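import Crest.Agent.X262.Mv99.Mon
import Crest.Agent.X262.Surf.Bas
import Crest.Agent.X262.FG.Prm0
import Crest.Agent.X262.RR.Main

/-!
# Row 262, G4 (helper68): the numbers of a quartic surface

* `sec_quartic`, `h0_quartic` : `h⁰(m H) = 2 m² + 2`;
* `num_of_h0` : the Hilbert polynomial determines `χ(O)`, `H²`, `H · K`;
* `chi_quartic`, `sq_quartic`, `hk_quartic`, `lin_kP_quartic`;
* `k3_of_h0` : `χ(O) = 2` and `K ∼ 0` are read off the Hilbert function;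
* `IrrQ`, `irr_of_chi`, `irr_quartic`, `irr_of_h0` : no regular one-forms.
-/

set_option autoImplicit false

open Filter Module

noncomputable section

namespace Crest.Agent.X262.KV

open Crest.Agent.X277 Crest.Agent.X277.Lef Crest.Agent.X277.AN.G1 Crest.Agent.X277.BD
open Crest.Agent.X277.BD.Br (On oP kP)
open Crest.Agent.X262.Surf Crest.Agent.X262.Mv99
open Crest.Agent.X262.Top (Hyp)

variable {F : Type} [Field F] [Algebra ℂ F] {Γ : MvPolynomial (Fin 4) ℂ} {S : Hyp 3 Γ F}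
  {P : PModel ℂ F} {c : ℤ}

/-- the sections of `O(n)` -/
theorem sec_quartic (hΓ : Qt Γ) (n : ℤ) : (n • oP S.P).Sec = Sp S.y n ∅ := by
  refine le_antisymm (fun f hf => Mv99.h0 hΓ n fun a x _ V _ => hf V) fun f hf V => ?_
  obtain ⟨x, hx⟩ := Br.exists_ov' S.P V
  obtain ⟨a, ha⟩ := exists_U hΓ x
  have h1 : f ∈ Gm S n {a} := (gm_one (S := S) hΓ n a).ge (Sp.mono (Finset.empty_subset _) hf)
  exact h1 x (mem_UI_one.2 ha) V hx

/-- the reduced exponents -/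
def exT (n : ℕ) : Finset (Σ _ : ℕ, Σ _ : ℕ, ℕ) :=
  (Finset.range 4).sigma fun d => (Finset.range (n + 1 - d)).sigma fun k => Finset.range (k + 1)

/-- the reduced exponents -/
def exF (n : ℕ) (t : Σ _ : ℕ, Σ _ : ℕ, ℕ) : Fin 4 → ℤ :=
  ![t.2.2, t.2.1 - t.2.2, n - t.1 - t.2.1, t.1]

theorem exF_inj (n : ℕ) : Function.Injective (exF n) := by
  rintro ⟨d, k, i⟩ ⟨d', k', i'⟩ h
  have h0 : (i : ℤ) = i' := congrFun h 0
  have h1 : (k : ℤ) - i = k' - i' := congrFun h 1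
  have h3 : (d : ℤ) = d' := congrFun h 3
  obtain rfl : i = i' := by omega
  obtain rfl : k = k' := by omega
  obtain rfl : d = d' := by omega
  rfl

theorem ex3_eq (n : ℕ) : Ex3 n ∅ = ((exT n).image (exF n) : Finset (Fin 4 → ℤ)) := by
  ext m
  simp only [Ex3, Ex, Fin.sum_univ_four, Fin.forall_fin_succ, Finset.coe_image, Set.mem_image,
    Finset.mem_coe, exT, Finset.mem_sigma, Finset.mem_range, Set.mem_ofPred_eq,
    Finset.notMem_empty, not_false_eq_true, forall_const, IsEmpty.forall_iff, and_true]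
  constructor
  · rintro ⟨⟨h1, h2, h3, h4, h5⟩, h6⟩
    change 0 ≤ m 0 at h3
    change 0 ≤ m 1 at h4
    change 0 ≤ m 2 at h5
    refine ⟨⟨(m 3).toNat, (m 0 + m 1).toNat, (m 0).toNat⟩, ⟨?_, ?_, ?_⟩, funext fun i => ?_⟩
    · dsimp only; omega
    · dsimp only; omega
    · dsimp only; omega
    · fin_cases i <;> simp [exF] <;> omega
  · rintro ⟨⟨d, k, i⟩, ⟨h1, h2, h3⟩, rfl⟩
    dsimp only at h1 h2 h3
    simp [exF]
    omega

theorem card_exT {n : ℕ} (hn : 2 ≤ n) : (exT n).card = 2 * n ^ 2 + 2 := by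
  have h1 : ∀ N : ℕ, 2 * ∑ k ∈ Finset.range N, (k + 1) = N * (N + 1) := fun N => by
    induction N with
    | zero => rfl
    | succ N ih => rw [Finset.sum_range_succ, mul_add, ih]; ring
  obtain ⟨n, rfl⟩ := Nat.exists_eq_add_of_le' hn
  simp only [exT, Finset.card_sigma, Finset.card_range]
  refine Nat.eq_of_mul_eq_mul_left two_pos ?_
  rw [Finset.mul_sum]
  simp only [h1, Finset.sum_range_succ, Finset.range_zero, Finset.sum_empty]
  rw [show n + 2 + 1 - 0 = n + 3 from rfl, show n + 2 + 1 - 1 = n + 2 from rfl,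
    show n + 2 + 1 - 2 = n + 1 from rfl, show n + 2 + 1 - 3 = n from rfl]
  ring

theorem h0_quartic (hΓ : Qt Γ) {m : ℕ} (hm : 2 ≤ m) : Surf.h0 (m • oP S.P) = 2 * m ^ 2 + 2 := by
  have h1 : LinearIndepOn ℂ (mon S.y) (Ex3 m ∅) :=
    (indepS hΓ m).mono (Ex3.mono (Finset.empty_subset _))
  rw [Surf.h0, ← natCast_zsmul, sec_quartic hΓ, Sp, Set.image_eq_range]
  rw [ex3_eq] at h1 ⊢
  rw [finrank_span_eq_card h1.linearIndependent]
  simp only [Finset.coe_sort_coe, Fintype.card_coe, Finset.card_image_of_injective _ (exF_inj m),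
    card_exT hm]
  push_cast
  rfl

theorem poly3 {A B C : ℤ} (h : ∀ᶠ m : ℕ in atTop, A * m ^ 2 + B * m + C = 0) :
    A = 0 ∧ B = 0 ∧ C = 0 := by
  obtain ⟨m, hm⟩ := eventually_atTop.1 h
  have h0 := hm m le_rfl
  have h1 := hm (m + 1) (by omega)
  have h2 := hm (m + 2) (by omega)
  push_cast at h1 h2
  have hA : 2 * A = 0 := by linear_combination h2 - 2 * h1 + h0
  obtain rfl : A = 0 := by omega
  obtain rfl : B = 0 := by linear_combination h1 - h0
  exact ⟨rfl, rfl, by simpa using h0⟩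

theorem h0_zero_le_one : Surf.h0 (0 : BD ℂ F) ≤ 1 := by
  have h1 : (0 : BD ℂ F).Sec ≤ Submodule.span ℂ {1} := fun x hx => by
    have h2 : IsIntegral (⊥ : Subalgebra ℂ F) x := Cns.isIntegral_of_val fun V hV =>
      RZ.le_one_iff.1 (hx ⟨V, Cns.KV.of_le hV⟩)
    obtain ⟨c, rfl⟩ := (IsAlgClosed.algebraMap_bijective_of_isIntegral (k := ℂ)
      (K := integralClosure ℂ F)).2 ⟨x, isIntegral_trans (R := ℂ) x h2⟩ |>.imp
        fun c hc => congrArg Subtype.val hc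
    exact Submodule.mem_span_singleton.2 ⟨c, (Algebra.algebraMap_eq_smul_one c).symm⟩
  exact Int.ofNat_le.2
    ((Submodule.finrank_mono h1).trans (finrank_span_singleton (one_ne_zero' F)).le)

variable [Algebra.EssFiniteType ℂ F]

/-- the Hilbert polynomial determines the numbers -/
theorem num_of_h0 {b : B2 F} (hc : Chi P b c) {A B C : ℤ}
    (h : ∀ᶠ m : ℕ in atTop, 2 * Surf.h0 (m • oP P) = A * m ^ 2 + B * m + C) :
    bnum [oP P, oP P] = A ∧ bnum [oP P, kP P b] = -B ∧ 2 * c = C := by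
  obtain ⟨h1, h2, h3⟩ := poly3 (A := bnum [oP P, oP P] - A) (B := -bnum [oP P, kP P b] - B)
    (C := 2 * c - C) ((h.and (hc 0 (zero_mem _))).mono fun m hm => by
      obtain ⟨h1, h2⟩ := hm
      rw [zero_add, rr, bnum_nsmul, bnum_sub2, bnum_nsmul2] at h2
      linear_combination h1 - h2)
  omega

/-- a surface with `χ(O) ≥ 2` and `H · K = 0` has trivial canonical class -/
theorem lin_kP_zero {b : B2 F} (hc : Chi P b c) (h2 : 2 ≤ c) (h : bnum [oP P, kP P b] = 0) :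
    Lin (kP P b) 0 := by
  have h1 := RR.serStmt F P b c hc 0 (zero_mem _)
  rw [rr, bnum_zero, sub_zero] at h1
  have h3 := h0_zero_le_one (F := F)
  obtain ⟨s, hs, h0⟩ : Eff (kP P b) := eff_iff_finrank.2 (by unfold Surf.h0 at h1 h3; omega)
  have h4 := FG.Prm5.eq_zero_of_bnum (d := 1) (Hor83.dim_two b)
    (sub_mem (Br.kP_mem (P := P) b) (Br.pr_mem s)) (sub_nonneg.2 ((pr_le_iff h0).2 hs)) (by
      rw [bnum_sub, bnum_pr, sub_zero]
      exact (bnum_swap _ _ _).trans h)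
  exact ⟨s, h0, by rw [zero_add, ← sub_eq_zero, h4]⟩

theorem num_quartic (hΓ : Qt Γ) (b : B2 F) :
    Chi S.P b 2 ∧ bnum [oP S.P, oP S.P] = 4 ∧ bnum [oP S.P, kP S.P b] = 0 := by
  obtain ⟨c, hc⟩ := RR.rrStmt F S.P b
  obtain ⟨h1, h2, h3⟩ := num_of_h0 hc (A := 4) (B := 0) (C := 4)
    ((eventually_ge_atTop 2).mono fun m hm => by rw [h0_quartic hΓ hm]; ring)
  obtain rfl : c = 2 := by omega
  exact ⟨hc, h1, h2⟩

theorem chi_quartic (hΓ : Qt Γ) (b : B2 F) : Chi S.P b 2 := (num_quartic hΓ b).1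

theorem sq_quartic (hΓ : Qt Γ) (b : B2 F) : bnum [oP S.P, oP S.P] = 4 := (num_quartic hΓ b).2.1

theorem hk_quartic (hΓ : Qt Γ) (b : B2 F) : bnum [oP S.P, kP S.P b] = 0 := (num_quartic hΓ b).2.2

theorem lin_kP_quartic (hΓ : Qt Γ) (b : B2 F) : Lin (kP S.P b) 0 :=
  lin_kP_zero (chi_quartic hΓ b) le_rfl (hk_quartic hΓ b)

theorem h0_lin_zero {a : BD ℂ F} (h : Lin a 0) : Surf.h0 a = 1 := by
  have h1 := h0_zero_le_one (F := F)
  have h2 := eff_iff_finrank.1 (Free.zero (k := ℂ) (F := F)).eff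
  rw [Surf.h0, h.finrank]
  unfold Surf.h0 at h1
  omega

/-- two surfaces with the same Hilbert function -/
theorem k3_of_h0 {E : Type} [Field E] [Algebra ℂ E] [Algebra.EssFiniteType ℂ E] {P' : PModel ℂ E}
    {b : B2 F} (b' : B2 E) (hc : Chi P b 2) (hK : Lin (kP P b) 0)
    (h : ∀ᶠ m : ℕ in atTop, Surf.h0 (m • oP P') = Surf.h0 (m • oP P)) :
    Chi P' b' 2 ∧ Lin (kP P' b') 0 ∧ bnum [oP P', oP P'] = bnum [oP P, oP P] := by
  obtain ⟨c, hc'⟩ := RR.rrStmt E P' b'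
  obtain ⟨h1, h2, h3⟩ := num_of_h0 hc' (A := bnum [oP P, oP P]) (B := 0) (C := 4)
    ((h.and (hc 0 (zero_mem _))).mono fun m hm => by
      obtain ⟨h1, h2⟩ := hm
      rw [zero_add, rr, bnum_nsmul, bnum_sub2, bnum_nsmul2, bnum_swap _ (kP P b), hK.bnum_eq,
        bnum_zero] at h2
      rw [h1, h2]
      ring)
  obtain rfl : c = 2 := by omega
  exact ⟨hc', lin_kP_zero hc' le_rfl h2, h1⟩

/-- Hodge symmetry: a surface with `χ(O) = 1 + p_g` has no regular one-form -/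
def IrrQ : Prop := ∀ (F : Type) [Field F] [Algebra ℂ F] [Algebra.EssFiniteType ℂ F]
  (P : PModel ℂ F) (b : B2 F) (c : ℤ), Chi P b c → c = 1 + Surf.h0 (kP P b) →
    ∀ ω, Top.Reg1 P ω → ω = 0

theorem irr_of_chi (hQ : IrrQ) {b : B2 F} (hc : Chi P b 2) (hK : Lin (kP P b) 0) :
    ∀ ω, Top.Reg1 P ω → ω = 0 := hQ F P b 2 hc (by rw [h0_lin_zero hK]; rfl)

theorem irr_quartic (hQ : IrrQ) (hΓ : Qt Γ) (b : B2 F) : ∀ ω, Top.Reg1 S.P ω → ω = 0 :=
  irr_of_chi hQ (chi_quartic hΓ b) (lin_kP_quartic hΓ b)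

theorem irr_of_h0 (hQ : IrrQ) {E : Type} [Field E] [Algebra ℂ E] [Algebra.EssFiniteType ℂ E]
    {P' : PModel ℂ E} {b : B2 F} (b' : B2 E) (hc : Chi P b 2) (hK : Lin (kP P b) 0)
    (h : ∀ᶠ m : ℕ in atTop, Surf.h0 (m • oP P') = Surf.h0 (m • oP P)) :
    ∀ ω, Top.Reg1 P' ω → ω = 0 :=
  irr_of_chi hQ (k3_of_h0 b' hc hK h).1 (k3_of_h0 b' hc hK h).2.1

end Crest.Agent.X262.KV
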