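import Crest.Agent.X262.KV.An
import Crest.Agent.X262.FG.Basic
import Crest.Agent.X277.Link.HlB

/-!
# Row 262, KV (helper68), part 2: lifting on an snc model

* `Loc B T g u` : a section on the union of the components in `T`, given by local lifts;
* `kv_mod` : for `q G = q K + ∑ c e D e + q T + L`, `c < q`, `L` free and big, sections on `T` lift.
-/

set_option autoImplicit false

open WithZero Filter Topology Set
open scoped KaehlerDifferential

noncomputable section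

namespace Crest.Agent.X262.KV

open Crest.Agent.R275.Geo Crest.Agent.R275.Core144 Crest.Agent.R273.Defs_333
open Crest.Agent.R273.GreenM_5 (ci mem_ci)
open Crest.Agent.R273.SerA_945 (Fn)
open Crest.Agent.X277 Crest.Agent.X277.Lef Crest.Agent.X277.Res.Out Crest.Agent.X277.AN.G1
  Crest.Agent.X277.Res.Log Crest.Agent.X277.AN.G1.AnP Crest.Agent.X277.Link
open Crest.Agent.X277.BD (Free Big vl)
open Crest.Agent.X277.BD.Br (At oP kP)
open Crest.Agent.X262.FG

variable {F : Type} [Field F] [Algebra ℂ F] {P : PModel ℂ F} {n : ℕ}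

/-- a section on the union of the components in `T`, given by local lifts on every branch -/
structure Loc (B : Bd P n) (T : Finset B.ι) (g : Pts P → F) (u : B.ι → Pts P → F) : Prop where
  mem : ∀ e ∈ T, ∀ x, On (B.v e) x → u e x / g x ∈ (lp x).O
  coh : ∀ e ∈ T, ∀ x x', On (B.v e) x → On (B.v e) x' → B.v e ((u e x - u e x') / g x) < 1
  val : ∀ e ∈ T, ∀ e' ∈ T, ∀ x, On (B.v e) x → On (B.v e') x →
    ev (u e x / g x) x = ev (u e' x / g x) x

theorem gen_at {v : Valuation F ℤᵐ⁰} {x : Pts P} (h : On v x) {a : BD ℂ F} {g : F}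
    (hg : At a x g) : ∀ᶠ y in gen P v, At a y g :=
  (at_zn (exists_pat x).choose_spec hg).filter_mono (gen_le_zn _ h)

variable {B : Bd P n} {T : Finset B.ι} {g : Pts P → F} {u : B.ι → Pts P → F} {G : BD ℂ F} {f : F}

theorem Loc.ev_lift (hu : Loc B T g u) {e : B.ι} (he : e ∈ T) {x y : Pts P}
    (hx : On (B.v e) x) (hy : On (B.v e) y) (h : u e x / g y ∈ (lp y).O) :
    ev (u e x / g y) y = ev (u e y / g y) y := by
  have h1 := hy.ev_eq (hu.coh e he y x hy hx)
  unfold ev at h1 ⊢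
  rw [sub_div, LP.v_sub (hu.mem e he y hy) h, sub_eq_zero] at h1
  exact h1.symm

theorem Loc.lt_of_val (hu : Loc B T g u) (hg : ∀ x, At G x (g x)) (hf : f ∈ G.Sec) {e : B.ι}
    (he : e ∈ T) (H : ∀ y, On (B.v e) y → ev (f / g y) y = ev (u e y / g y) y) {x : Pts P}
    (hx : On (B.v e) x) : B.v e ((f - u e x) / g x) < 1 := by
  have := (bd_isPD B e).neBot
  refine lt_of_gen (P := P) (hx _ (by
    rw [sub_div]
    exact sub_mem ((hg x).div_mem hf) (hu.mem e he x hx))) (Eventually.frequently ?_)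
  filter_upwards [gen_on, gen_at hx (hg x), gen_mem (hx _ (hu.mem e he x hx))] with y h2 h3 h4
  have h5 := un_iff.2 ((hg y).ev_div_ne h3)
  have h7 : ∀ a : F, a / g x = a / g y * (g y / g x) := fun a =>
    (div_mul_div_cancel₀ (hg y).ne).symm
  have h8 := h3.chg (hg y) h4
  have h9 := H y h2
  rw [← hu.ev_lift he hx h2 h8] at h9
  rw [h7, ev_mul_un h5, sub_div]
  unfold ev at h9 ⊢
  rw [LP.v_sub ((hg y).div_mem hf) h8, h9, sub_self, zero_mul]

/-- an atlas which is adapted to the boundary and to two divisors -/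
theorem exists_ad (B : Bd P n) (b : Module.Basis (Fin n) F Ω[F⁄ℂ]) {G L : BD ℂ F}
    {g l : Pts P → F} (hg : ∀ x, At G x (g x)) (hl : ∀ x, At L x (l x)) :
    ∃ (X : AnP P n) (c : X.A.ι → Pts P) (φ ψ : X.frm), AdB B X c ∧ Gn φ g ∧ Gn ψ l := by
  obtain ⟨X, hX⟩ := exists_AnP b (fun x₀ : Pts P => interior
      {x | (∀ e, Un (lp x).O (B.τ e x / B.τ e x₀)) ∧ At G x (g x₀) ∧ At L x (l x₀)})
    (fun _ => isOpen_interior) fun x =>
      ⟨x, mem_interior_iff_mem_nhds.2 ((eventually_all.2 fun e => B.coh e x).and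
        ((hg x).eventually.and (hl x).eventually))⟩
  choose c hc using hX
  have h1 := fun α x hx => interior_subset (hc α (a := x) hx)
  exact ⟨X, c, mkF (fun α => g (c α)) (fun α => (hg _).ne) fun α β x hx =>
      LP.mem_of_ne ((h1 β x hx.2).2.1.ev_div_ne (h1 α x hx.1).2.1),
    mkF (fun α => l (c α)) (fun α => (hl _).ne) fun α β x hx =>
      LP.mem_of_ne ((h1 β x hx.2).2.2.ev_div_ne (h1 α x hx.1).2.2),
    fun α x hx => (h1 α x hx).1,
    fun α x hx => un_iff.2 ((hg x).ev_div_ne (h1 α x hx).2.1),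
    fun α x hx => un_iff.2 ((hl x).ev_div_ne (h1 α x hx).2.2)⟩

section dat

variable {X : AnP P n} {c : X.A.ι → Pts P} {φ : X.frm}

open Classical in
/-- the values on `T` of a section given by local lifts -/
def dat (B : Bd P n) (T : Finset B.ι) (φ : X.frm) (u : B.ι → Pts P → F) : Fn X.A := fun i y =>
  if H : ∃ e ∈ T, On (B.v e) y then sec φ (u H.choose y) i y else 0

theorem dat_eq (hu : Loc B T g u) (hφ : Gn φ g) {e : B.ι} (he : e ∈ T) {i : X.A.ι} {y : Pts P}
    (hy : y ∈ (X.A.e i).source) (h0 : On (B.v e) y) :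
    dat B T φ u i y = sec φ (u e y) i y := by
  have H : ∃ e ∈ T, On (B.v e) y := ⟨e, he, h0⟩
  rw [dat, dif_pos H]
  exact (hφ.sec_eq_iff hy).2 (hu.val _ H.choose_spec.1 e he y H.choose_spec.2 h0)

theorem dat_loc (a : AdB B X c) (hu : Loc B T g u) (hφ : Gn φ g) {e : B.ι} (he : e ∈ T)
    {x : Pts P} (hx : On (B.v e) x) :
    ∃ (W : Set (Pts P)) (σ : Fn X.A), IsOpen W ∧ x ∈ W ∧ IsHS (X.lbF φ) W σ ∧
      ∀ i, ∀ y ∈ (X.A.e i).source, y ∈ W → a.sE e i y = 0 → σ i y = dat B T φ u i y := by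
  have h1 : ∀ y ∈ interior {y | u e x / g y ∈ (lp y).O}, u e x / g y ∈ (lp y).O := fun y hy =>
    interior_subset (s := {y | u e x / g y ∈ (lp y).O}) hy
  refine ⟨interior {y | u e x / g y ∈ (lp y).O}, sec φ (u e x),
    isOpen_interior, mem_interior_iff_mem_nhds.2 ?_, isHS_sec (hφ.regS_iff.2 h1),
    fun i y hy hW h0 => ?_⟩
  · filter_upwards [hφ.eventually x, eventually_mem (hu.mem e he x hx)] with y h2 h3
    rwa [← div_mul_div_cancel₀ (hφ.ne y), mem_mul_un h2] at h3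
  · have h2 := (a.sE_eq_zero hy).1 h0
    rw [dat_eq hu hφ he hy h2]
    exact (hφ.sec_eq_iff hy).2 (hu.ev_lift he hx h2 (h1 y hW))

end dat

open Classical in
/-- **lifting on an snc model** -/
theorem kv_mod (b : Module.Basis (Fin n) F Ω[F⁄ℂ]) {L : BD ℂ F} (hg : ∀ x, At G x (g x))
    (hL : Free L) (hB : Big L) {q : ℕ} {c : B.ι → ℕ} (hc : ∀ e, c e < q) (hq : 0 < q)
    (hE : q • G = q • kP P b + dvs B (fun e => c e) +
      q • dvs B (fun e => if e ∈ T then 1 else 0) + L) (hu : Loc B T g u) :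
    ∃ f ∈ G.Sec, ∀ e ∈ T, ∀ x, On (B.v e) x → B.v e ((f - u e x) / g x) < 1 := by
  have hLP : L ∈ BD.Br.On P := by
    rw [← sub_eq_iff_eq_add'] at hE
    rw [← hE]
    exact sub_mem (nsmul_mem (fun x => ⟨_, hg x⟩) q) (add_mem (add_mem
      (nsmul_mem (BD.Br.kP_mem b) q) (dvs_mem B _)) (nsmul_mem (dvs_mem B _) q))
  choose l hl using hLP
  choose z hz using fun x : Pts P => exists_crd b x
  obtain ⟨X, c₀, φ, ψ, a, hφ, hψ⟩ := exists_ad B b hg hl
  borelize (Pts P)
  obtain ⟨d, hd, τ, hτ, hτ0⟩ := hB (dvs B fun e => if e ∈ T then 1 else 0)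
  have hT : ∏ e ∈ T, X.lbF (a.eF e) = X.lbF (a.monF fun e => if e ∈ T then 1 else 0) := by
    rw [AdB.monF, map_prod, ← Finset.prod_subset (Finset.subset_univ T)]
    · exact Finset.prod_congr rfl fun e he => by simp [he]
    · intro e _ he
      simp [he]
  have hΨ := ((((((gn_kF (X := X) b hz).pow q).mul (a.gn_monF fun e => c e)).mul
    ((a.gn_monF fun e => if e ∈ T then 1 else 0).pow q)).mul hψ).mul (hφ.pow q).inv)
  have hΨ1 : ∀ x, ev (1 / (jac b (z x) ^ q * (B.mon x fun e => c e)⁻¹ *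
      (B.mon x fun e => if e ∈ T then 1 else 0)⁻¹ ^ q * l x * (g x ^ q)⁻¹)) x ≠ 0 := fun x => by
    have h1 := ((((((BD.Br.at_kP b (hz x)).nsmul q).add (at_dvs B (fun e => c e) x)).add
      ((at_dvs B (fun e => if e ∈ T then 1 else 0) x).nsmul q)).add (hl x)).add
      ((hg x).nsmul q).neg)
    rw [← hE, add_neg_cancel] at h1
    exact (BD.Br.at_zero x).ev_div_ne h1
  have hτ1 : τ ∈ (d • L).Sec := BD.Sec_mono (sub_le_self _ (dvs_nonneg fun e => by
    split_ifs <;> simp)) hτ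
  obtain ⟨E, hE', h1⟩ := ext_kv X.PA (R273.FS_333.fsKah X.Pr) a.isHS_sE (a.snc b)
    (G := X.lbF φ) (L := X.lbF ψ) (T := T)
    ((gen_lbF_iff ψ).2 fun x => by
      obtain ⟨f, h1, h2⟩ := (hl x).exists_sec hL
      refine ⟨f, hψ.regS_iff.2 fun y _ => (hl y).div_mem h1, _, mem_ci (A := X.A) x, ?_⟩
      rw [hψ.ev_eq (mem_ci x)]
      exact mul_ne_zero (h2.ev_div_ne (hl x)) (un_iff.1 (hψ _ x (mem_ci x)))) hq hc
    (w := sec _ 1) (by
      have h2 := isHS_sec (hΨ.regS_iff.2 fun x (_ : x ∈ univ) => LP.mem_of_ne (hΨ1 x))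
      rw [hT, KB_eq X b]
      convert h2 using 1
      simp only [AdB.monF, map_mul, map_inv, map_pow, map_prod, zpow_natCast])
    (fun x h0 => hΨ1 x ((hΨ.sec_eq_zero (mem_ci x)).1 h0)) hd (τ := sec (ψ ^ d) τ)
    (by
      rw [← map_pow]
      exact isHS_sec ((hψ.pow d).regS_iff.2 fun x _ => ((hl x).nsmul d).div_mem hτ1))
    (exists_sec_ne _ hτ0)
    (fun x e he h0 => by
      have hx := (a.sE_eq_zero (mem_ci x)).1 h0
      refine ((hψ.pow d).sec_eq_zero (mem_ci x)).2 (hx.ev_eq ?_)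
      have h2 := lt_vl_of_mem (B := B) (e := e) (BD.Sec_mono (sub_le_sub_left (dvs_mono fun e' => by
        by_cases h : e' = e
        · simp [h, he]
        · rw [Pi.single_eq_of_ne h]
          split_ifs <;> simp) _) hτ)
      rw [vl_of_at ((hl x).nsmul d) hx] at h2
      rwa [map_div₀, div_lt_one₀ (zero_lt_iff.2 ((Valuation.ne_zero_iff _).2
        ((hl x).nsmul d).ne))])
    (φ := dat B T φ u) fun e he x hx => dat_loc a hu hφ he ((a.sE_eq_zero (mem_ci x)).1 hx)
  obtain ⟨f, hf, rfl⟩ := gaga _ hE'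
  have hf' : f ∈ G.Sec := BD.Br.mem_Sec_of fun x => ⟨_, hg x, hφ.regS_iff.1 hf x trivial⟩
  refine ⟨f, hf', fun e he x hx => hu.lt_of_val hg hf' he (fun y hy => ?_) hx⟩
  have h3 := mem_ci (A := X.A) y
  have h4 := h1 y e he ((a.sE_eq_zero h3).2 hy)
  rwa [dat_eq hu hφ he h3 hy, hφ.sec_eq_iff h3] at h4

end Crest.Agent.X262.KV
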