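import Crest.Agent.X262.Lift8.Aff
import Crest.Agent.X262.Lift8.Defs
import Crest.Agent.X262.KV.Mod
import Crest.Agent.X262.FG.Bert
import Crest.Agent.X262.FG.Up0

/-!
# Row 262, G4 / VAN (helper8, helper68): `H¹(K + N) = 0` for `N` free and big

* `van_kv`   : every cocycle with values in `K + N` is a coboundary;
* `vanPStmt` : the same for covers by Zariski open sets of closed points.
-/

set_option autoImplicit false

open WithZero Filter Topology Set
open scoped KaehlerDifferential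

noncomputable section

namespace Crest.Agent.X262.KV

open Crest.Agent.X277 Crest.Agent.X277.Lef Crest.Agent.X277.AN.G1 Crest.Agent.X277.BD
open Crest.Agent.X277.BD.Br (At oP kP)
open Crest.Agent.X277.Cns (KV Ov)
open Crest.Agent.X277.Res.Log (Bd On)
open Crest.Agent.X262.FG Crest.Agent.X262.Lift8

variable {F : Type} [Field F] [Algebra ℂ F] {P : PModel ℂ F} {n : ℕ}

theorem div_mon_mem {B : Bd P n} {x : Pts P} {w : F} (hw : w ∈ (lp x).O)
    (h : ∀ e, On (B.v e) x → B.v e w < 1) : w / B.mon x (fun _ => 1) ∈ (lp x).O := by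
  classical
  have key : ∀ S : Finset B.ι, w / ∏ e ∈ S, B.τ e x ∈ (lp x).O := by
    intro S
    induction S using Finset.induction_on with
    | empty => simpa using hw
    | insert e S he ih =>
      rw [Finset.prod_insert he]
      by_cases hx : On (B.v e) x
      · rw [mul_comm, ← div_div]
        refine Bd.div_mem hx ih ?_
        rw [map_div₀, map_prod, Finset.prod_eq_one fun e' he' =>
          Bd.v_τ_ne hx fun h1 => he (h1 ▸ he'), div_one]
        exact h e hx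
      · rwa [B.off e x hx, one_mul]
  simpa [Bd.mon] using key Finset.univ

open Classical in
/-- one pole order is removed -/
theorem van_step (b : Module.Basis (Fin n) F Ω[F⁄ℂ]) {N : BD ℂ F} (hNP : N ∈ Br.On P)
    (hN : Free N) (hB : Big N) {ι : Type*} {U : ι → Set (RZ ℂ F)} (hU : Cov P U) {r : ι → F}
    (hr : ∀ c c' V, V ∈ U c → V ∈ U c' → r c - r c' ∈ vS (kP P b + N) V) {C : Bd P n} {s : F}
    (h0 : s ≠ 0) (hT : oP P - pr ℂ s = dvs C fun _ => 1) {i : ℕ} {r₀ : F}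
    (h : ∀ c V, V ∈ U c → s ^ (i + 1) * (r₀ - r c) ∈ vS (kP P b + N + (i + 1) • oP P) V) :
    ∃ r₁ : F, ∀ c V, V ∈ U c → s ^ i * (r₁ - r c) ∈ vS (kP P b + N + i • oP P) V := by
  choose c T h1 h2 using hU
  have hx : ∀ x (V : RZ ℂ F), Ov x V.1 → V ∈ U (c x) := fun x V hV =>
    h2 x V fun y hy => hV y (h1 x y hy)
  have hs : s ∈ (oP P).Sec := Sec_mono (by
    rw [← sub_nonneg, hT]
    exact dvs_nonneg fun _ => zero_le_one) (mem_Sec_pr s)
  have hv : ∀ x (V : RZ ℂ F), Ov x V.1 → V.v s = (oP P).val V * V.v (C.mon x fun _ => 1) := by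
    intro x V hV
    have h3 := at_dvs C (fun _ => 1) x V hV
    rw [← hT, val_sub, val_pr h0, map_inv₀, inv_eq_iff_eq_inv, inv_div,
      eq_div_iff (val_ne _ V)] at h3
    rw [← h3, mul_comm]
  choose g hg using (add_mem (add_mem (Br.kP_mem b) hNP) (nsmul_mem Br.oP_mem (i + 1)) :
    kP P b + N + (i + 1) • oP P ∈ Br.On P)
  have key : ∀ (j : ℕ) c c' V, V ∈ U c → V ∈ U c' →
      s ^ j * (r c - r c') ∈ vS (kP P b + N + j • oP P) V := fun j c c' V hc hc' => by
    rw [mem_vS, map_mul, val_add, mul_comm]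
    exact mul_le_mul' (hr _ _ V hc hc') (pow_mem_Sec hs _ V)
  have hu : KV.Loc C Finset.univ g fun _ x => s ^ (i + 1) * (r₀ - r (c x)) := by
    refine ⟨fun e _ x _ => (hg x).div_mem_iff.2 fun V hV => h _ V (hx x V hV),
      fun e _ x x' he he' => ?_, fun _ _ _ _ _ _ _ => rfl⟩
    let V := rz (C.v e) (triv C e)
    have h3 : Ov x V.1 := fun f hf => he f hf
    have h4 := key i _ _ V (hx x' V fun f hf => he' f hf) (hx x V h3)
    have h5 : V.v (C.mon x fun _ => 1) < 1 := by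
      rw [← map_one V.v, v_rz_lt_iff, map_one, Bd.mon, map_prod,
        Finset.prod_eq_single e (fun e' _ h => by rw [zpow_one, Bd.v_τ_ne he h.symm]) (by simp),
        zpow_one]
      exact Bd.v_τ_lt he
    rw [← map_one (C.v e), ← v_rz_lt_iff _ (triv C e), map_one, map_div₀,
      div_lt_one₀ (RZ.pos (hg x).ne), hg x V h3,
      show s ^ (i + 1) * (r₀ - r (c x)) - s ^ (i + 1) * (r₀ - r (c x')) =
        s ^ i * (r (c x') - r (c x)) * s by ring, map_mul, succ_nsmul, ← add_assoc, val_add,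
      hv x V h3]
    exact mul_lt_mul_of_le_of_lt_of_nonneg_of_pos h4
      (mul_lt_of_lt_one_right (val_pos _ V) h5) zero_le (val_pos _ V)
  obtain ⟨f, hf, h3⟩ := KV.kv_mod b (L := N + i • oP P + pr ℂ s) hg
    ((hN.add (Br.free_oP.nsmul i)).add (free_pr s))
    ((hB.add_eff (Br.free_oP.nsmul i).eff).add_eff (free_pr s).eff) (q := 1) (c := fun _ => 0)
    (fun _ => zero_lt_one) zero_lt_one (by
      have h3 : dvs C (fun _ => ((0 : ℕ) : ℤ)) = 0 := dvs_zero C
      simp only [Finset.mem_univ, if_true, one_smul, h3, ← hT, succ_nsmul]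
      abel) hu
  refine ⟨r₀ - f / s ^ (i + 1), fun c' V hV => ?_⟩
  obtain ⟨x, hx'⟩ := Br.exists_ov' P V
  have h4 := hx' _ (div_mon_mem (B := C) (w := (f - s ^ (i + 1) * (r₀ - r (c x))) / g x)
    (by
      rw [sub_div]
      exact sub_mem ((hg x).div_mem hf) ((hg x).div_mem_iff.2 fun V hV => h _ V (hx x V hV)))
    fun e he => h3 e (Finset.mem_univ e) x he)
  have h5 : s ^ i * (r₀ - f / s ^ (i + 1) - r (c x)) ∈ vS (kP P b + N + i • oP P) V := by
    rw [div_div, ← RZ.le_iff (mul_ne_zero (hg x).ne (C.mon_ne x _)),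
      show f - s ^ (i + 1) * (r₀ - r (c x)) =
        -(s ^ i * (r₀ - f / s ^ (i + 1) - r (c x)) * s) by field_simp; ring,
      Valuation.map_neg, map_mul, map_mul _ (g x), hg x V hx', succ_nsmul, ← add_assoc, val_add,
      hv x V hx', mul_assoc, mul_le_mul_iff_left₀
        (mul_pos (val_pos _ V) (RZ.pos (C.mon_ne x _)))] at h4
    exact h4
  simpa [mul_sub] using add_mem h5 (key i _ _ V (hx x V hx') hV)

/-- **vanishing** -/
theorem van_kv (b : Module.Basis (Fin n) F Ω[F⁄ℂ]) {N : BD ℂ F} (hNP : N ∈ Br.On P)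
    (hN : Free N) (hB : Big N) {ι : Type*} {U : ι → Set (RZ ℂ F)} (hU : Cov P U) :
    Van U (vS (kP P b + N)) := by
  intro r hr
  obtain ⟨u, C, j, c, -, h0, -, hc, hT⟩ := Bert.bertStmt F n P (bd0 P b) (oP P) Br.oP_mem _ P.y
    Br.y_mem_Sec (fun x => (exists_pat x).imp fun _ => Br.at_y) 1 one_ne_zero
  have h1 : c = fun _ => 1 := funext fun e => hc e fun ⟨e', _⟩ => e'.elim
  rw [h1] at hT
  obtain ⟨e, r₀, h⟩ := exists_kill hU hr
    (sum_mem fun i _ => Submodule.smul_mem _ (u i) (Br.y_mem_Sec i)) h0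
  induction e generalizing r₀ with
  | zero => exact ⟨r₀, fun c V hV => by simpa using h c V hV⟩
  | succ i ih =>
    obtain ⟨r₁, h2⟩ := van_step b hNP hN hB hU hr h0 hT h
    exact ih r₁ h2

theorem exists_ov_ne {i : Fin (P.N + 1)} {V : RZ ℂ F} (hA : ∀ a ∈ P.A i, a ∈ V.1) {c : F}
    (hc : c ∈ P.A i) (h1 : V.v c = 1) : ∃ x ∈ pat P i, Ov x V.1 ∧ ev c x ≠ 0 := by
  let φ : P.A i →+* V.1 := (P.A i).val.toRingHom.codRestrict V.1 fun a => hA a a.2
  have : IsJacobsonRing (P.A i) := isJacobsonRing_of_finiteType (A := ℂ)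
  have h2 : (⟨c, hc⟩ : P.A i) ∉ ((IsLocalRing.maximalIdeal V.1).comap φ).jacobson := by
    rw [isJacobsonRing_iff_prime_eq.1 this _ inferInstance]
    exact fun h => h ((V.1.valuation_eq_one_iff (φ ⟨c, hc⟩)).2 h1)
  rw [Ideal.jacobson, Ideal.mem_sInf] at h2
  push Not at h2
  obtain ⟨q, ⟨hq1, hq⟩, hq2⟩ := h2
  obtain ⟨x, hx, h0⟩ := exists_zero (I := q) hq.ne_top
  refine ⟨x, hx, fun f hf => ?_, fun h => ?_⟩
  · obtain ⟨a, ha, c, hc, h3, h4⟩ := (mem_lp_iff hx).1 hf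
    have h5 : V.v c = 1 := by
      refine (V.1.valuation_eq_one_iff (φ ⟨c, hc⟩)).1 ?_
      by_contra h6
      exact h3 (h0 ⟨c, hc⟩ (hq1 h6))
    rw [← RZ.le_one_iff, ← mul_one (V.v f), ← h5, ← map_mul, h4, h5]
    exact RZ.le_one_iff.2 (hA a ha)
  · obtain ⟨u, m, hm, h3⟩ := hq.exists_inv hq2
    have h4 : ev ((u * ⟨c, hc⟩ + m : P.A i) : F) x = 1 := by
      rw [h3]
      exact LP.v_one _
    have h5 := h0 m hm
    unfold ev at h h4 h5
    rw [Subalgebra.coe_add, Subalgebra.coe_mul,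
      LP.v_add _ (mul_mem (A_le hx u.2) (A_le hx hc)) (A_le hx m.2),
      LP.v_mul _ (A_le hx u.2) (A_le hx hc), h, h5, mul_zero, add_zero] at h4
    exact zero_ne_one h4

theorem v_one_of_ev {x : Pts P} {V : RZ ℂ F} (hx : Ov x V.1) {c : F} (h : ev c x ≠ 0) :
    V.v c = 1 := by
  simpa using (Br.at_zero x).mul_unit h V hx

/-- denominators in a fixed chart -/
theorem exists_den_ov {i : Fin (P.N + 1)} {x x' : Pts P} (hi : x ∈ pat P i) {V : RZ ℂ F}
    (hx : Ov x V.1) (hx' : Ov x' V.1) {f : F} (hf : f ∈ (lp x').O) :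
    ∃ c ∈ P.A i, V.v c = 1 ∧ c * f ∈ P.A i := by
  obtain ⟨j, hj⟩ := exists_pat x'
  obtain ⟨a, ha, c, hc, h0, h⟩ := (mem_lp_iff hj).1 hf
  obtain ⟨e, he⟩ := P.exists_pow_mul_mem i j ha
  obtain ⟨e', he'⟩ := P.exists_pow_mul_mem i j hc
  have h1 : V.v (P.y j / P.y i) = 1 := by
    refine le_antisymm (RZ.le_one_iff.2 (hx _ (y_mem hi j))) ?_
    rw [← inv_div, map_inv₀, one_le_inv₀ (RZ.pos (div_ne_zero (P.y_ne i) (P.y_ne j)))]
    exact RZ.le_one_iff.2 (hx' _ (y_mem hj i))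
  refine ⟨_, mul_mem (pow_mem (div_mem_chart P.y i j) e) he', ?_, ?_⟩
  · rw [map_mul, map_mul, map_pow, map_pow, h1, v_one_of_ev hx' h0]
    simp
  · convert mul_mem (pow_mem (div_mem_chart P.y i j) e') he using 1
    rw [← h]
    ring

/-- two points under a valuation ring -/
theorem exists_ov_mem {x : Pts P} {V : RZ ℂ F} (hx : Ov x V.1) {T : Finset F}
    (hT : ∀ f ∈ T, ∃ x' : Pts P, Ov x' V.1 ∧ f ∈ (lp x').O) :
    ∃ y : Pts P, Ov y V.1 ∧ ∀ f ∈ T, f ∈ (lp y).O := by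
  classical
  obtain ⟨i, hi⟩ := exists_pat x
  choose! c h1 h2 h3 using fun f (hf : f ∈ T) =>
    (hT f hf).elim fun x' h => exists_den_ov hi hx h.1 h.2
  obtain ⟨y, hy, h4, h5⟩ := exists_ov_ne (fun a ha => hx a (A_le hi ha)) (prod_mem h1)
    (by rw [map_prod]; exact Finset.prod_eq_one h2)
  refine ⟨y, h4, fun f hf => (mem_lp_iff hy).2 ⟨_, h3 f hf, _, h1 f hf, ?_, mul_comm _ _⟩⟩
  unfold ev at h5
  rw [LP.v_prod T fun f hf => A_le hy (h1 f hf)] at h5
  exact Finset.prod_ne_zero_iff.1 h5 f hf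

/-- **vanishing** for covers by sets of closed points -/
theorem vanPStmt : VanPStmt := by
  classical
  intro F _ _ n P b N hNP hN hB ι U hU hc r hr
  obtain ⟨s, hs⟩ := van_kv b hNP hN hB (U := fun c => {V | ∃ x ∈ U c, Ov x V.1}) (fun x => by
    obtain ⟨c, h1⟩ := hc x
    obtain ⟨T, h2, h3⟩ := hU c x h1
    obtain ⟨i, hi⟩ := exists_pat x
    choose! a ha d hd h4 h5 using fun f (hf : f ∈ T) => (mem_lp_iff hi).1 (h2 f hf)
    have h6 : ev (∏ f ∈ T, d f) x ≠ 0 := by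
      unfold ev
      rw [LP.v_prod T fun f hf => A_le hi (hd f hf)]
      exact Finset.prod_ne_zero_iff.2 h4
    refine ⟨c, insert (∏ f ∈ T, d f)⁻¹ (Finset.univ.image fun j => P.y j / P.y i), ?_,
      fun V hV => ?_⟩
    · simpa using ⟨(lp x).inv_mem h6, y_mem hi⟩
    have h7 : ∀ a ∈ P.A i, a ∈ V.1 := V.2.adjoin_le (by
      rintro _ ⟨j, rfl⟩
      exact hV _ (by simp))
    obtain ⟨y, hy, h8, h9⟩ := exists_ov_ne h7 (prod_mem hd) (by
      refine le_antisymm (RZ.le_one_iff.2 (h7 _ (prod_mem hd))) ?_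
      rw [← inv_le_one₀ (RZ.pos (LP.ne_zero_of_ne h6)), ← map_inv₀]
      exact RZ.le_one_iff.2 (hV _ (by simp)))
    refine ⟨y, h3 y fun f hf => (mem_lp_iff hy).2 ⟨_, ha f hf, _, hd f hf, ?_, h5 f hf⟩, h8⟩
    unfold ev at h9
    rw [LP.v_prod T fun f hf => A_le hy (hd f hf)] at h9
    exact Finset.prod_ne_zero_iff.1 h9 f hf) r (by
    rintro c c' V ⟨x, h1, h2⟩ ⟨x', h3, h4⟩
    obtain ⟨T, h5, h6⟩ := hU c x h1
    obtain ⟨T', h7, h8⟩ := hU c' x' h3
    obtain ⟨y, h9, h10⟩ := exists_ov_mem h2 (T := T ∪ T') fun f hf =>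
      (Finset.mem_union.1 hf).elim (fun h => ⟨x, h2, h5 f h⟩) fun h => ⟨x', h4, h7 f h⟩
    exact hr c c' y (h6 y fun f hf => h10 f (Finset.mem_union_left _ hf))
      (h8 y fun f hf => h10 f (Finset.mem_union_right _ hf)) V h9)
  exact ⟨s, fun c x hx V hV => hs c V ⟨x, hx, hV⟩⟩

end Crest.Agent.X262.KV

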