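import Crest.Agent.X262.FG.Defs

/-!
# Row 262, KV (helper68): the statement of the lifting lemma

`KVL n` : sections on the component `e` which lie in the multiplier ideal lift
(Kawamata-Viehweg-Nadel vanishing, in the form of Cascini-Lazić 3.1 and 3.2).
-/

set_option autoImplicit false

open WithZero
open scoped KaehlerDifferential

namespace Crest.Agent.X262.KV

open Crest.Agent.X277 Crest.Agent.X277.Lef Crest.Agent.X277.AN.G1 Crest.Agent.X277.BD
open Crest.Agent.X277.BD.Br (At oP kP)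
open Crest.Agent.X277.Res.Log (Bd)
open Crest.Agent.X262.FG

open Classical in
/-- lifting of sections from a component of the boundary -/
def KVL (n : ℕ) : Prop := ∀ (F : Type) [Field F] [Algebra ℂ F] (P : PModel ℂ F)
  (B : Bd P (n + 1)) (b : Module.Basis (Fin (n + 1)) F Ω[F⁄ℂ]) (e : B.ι) (E : Type) [Field E]
  [Algebra ℂ E] (Φ : Fc B b e E) (D N : BD ℂ F) (q : ℕ) (φ : B.ι → ℤ),
  D ∈ Br.On P → Free N → Big N → 0 < q → (∀ e₁, 0 ≤ φ e₁ ∧ φ e₁ < q) → φ e = 0 →
  od B e D = 0 → od B e N = 0 → q • (kP P b + dvs B (Pi.single e 1)) + N ≤ q • D →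
  ∀ s' : E, s' ^ q ∈ (q • kP Φ.P' Φ.b' + (pl Φ.p).res N + dvs Φ.B' fun w => φ (Φ.l w)).Sec →
    ∃ s ∈ D.Sec, Φ.p.r s = s'

end Crest.Agent.X262.KV
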