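import Crest.Agent.X262.KV.Mod
import Crest.Agent.X262.KV.Defs
import Crest.Agent.X262.FG.Up0
import Crest.Agent.X277.Lcx.An

/-!
# Row 262, KV (helper68), part 3: the lifting lemma

* `exists_kv` : lifting for `K + ⌈N / q⌉ + T`, `N` nef and big, on a suitable log resolution;
* `mu_le_kap` : adjunction, the discrepancies along the strict transform;
* `kvl_nef`, `kvl` : the lifting lemma `KVL`.
-/

set_option autoImplicit false

open WithZero Filter Topology Set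
open scoped KaehlerDifferential

noncomputable section

namespace Crest.Agent.X262.KV

open Crest.Agent.R273.GreenM_5 (ci mem_ci)
open Crest.Agent.X277 Crest.Agent.X277.Lef Crest.Agent.X277.Res.Out Crest.Agent.X277.AN.G1
  Crest.Agent.X277.Res.Log Crest.Agent.X277.Link
open Crest.Agent.X277.BD (Free Nef Big vl RZ Pl pr rz)
open Crest.Agent.X277.BD.Br (At oP kP)
open Crest.Agent.X277.Cns (Ov)
open Crest.Agent.X262.FG

variable {F : Type} [Field F] [Algebra ℂ F] {P Q : PModel ℂ F} {n : ℕ}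

open Classical in
/-- **lifting for `K + ⌈N / q⌉ + T`** on a log resolution -/
theorem exists_kv (B : Bd P n) (b : Module.Basis (Fin n) F Ω[F⁄ℂ]) {N : BD ℂ F} (hN : Nef N)
    (hB : Big N) (𝒢 : Finset (Finset F)) {ι : Type} [Finite ι] (a : ι → BD ℂ F) :
    ∃ (Q : PModel ℂ F) (C : Bd Q n), Hi B C ∧ LogRes P.y 𝒢 C ∧
      (∀ i, a i = dvs C fun e => od C e (a i)) ∧ (N = dvs C fun e => od C e N) ∧
      ∀ (q : ℕ) (g : C.ι → ℤ) (T : Finset C.ι) (γ : Pts Q → F) (u : C.ι → Pts Q → F), 0 < q →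
        (∀ e, od C e N ≤ q * g e ∧ q * g e < od C e N + q) →
        (∀ x, At (kP Q b + dvs C g + dvs C fun e => if e ∈ T then 1 else 0) x (γ x)) →
        Loc C T γ u → ∃ f ∈ (kP Q b + dvs C g + dvs C fun e => if e ∈ T then 1 else 0).Sec,
          ∀ e ∈ T, ∀ x, On (C.v e) x → C.v e ((f - u e x) / γ x) < 1 := by
  obtain ⟨h, hh, H⟩ := hN
  obtain ⟨m₀, -, t, ht, ht0⟩ := hB h
  obtain ⟨Q, C, h1, h2, h3⟩ := exists_hi B 𝒢
    (Sum.elim a ![N, m₀ • N - h - pr ℂ t] : ι ⊕ Fin 2 → BD ℂ F)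
  have h4 : N = dvs C fun e => od C e N := h3 (.inr 0)
  have h5 : m₀ • N - h - pr ℂ t = dvs C fun e => od C e (m₀ • N - h - pr ℂ t) := h3 (.inr 1)
  refine ⟨Q, C, h1, h2, fun i => h3 (.inl i), h4, fun q g T γ u hq hg hγ hu => ?_⟩
  obtain ⟨ε, h6⟩ : ∃ ε : C.ι → ℕ, m₀ • N - h - pr ℂ t = dvs C fun e => ε e :=
    ⟨fun e => (od C e (m₀ • N - h - pr ℂ t)).toNat, h5.trans (congrArg _ (funext fun e =>
      (Int.toNat_of_nonneg (od_sec ht ht0)).symm))⟩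
  obtain ⟨ν, hν⟩ : ∃ ν, ν = fun e => od C e N := ⟨_, rfl⟩
  have hg' : ∀ e, ν e ≤ q * g e ∧ q * g e < ν e + q := hν ▸ hg
  rw [← hν] at h4
  obtain ⟨r, hr, h7⟩ := H (∑ e, ε e + 1)
  have h8 : ∀ e, ε e < ∑ e, ε e + 1 := fun e => Nat.lt_succ_of_le
    (Finset.single_le_sum (f := ε) (fun _ _ => Nat.zero_le _) (Finset.mem_univ e))
  have h9 : 0 < ∑ e, ε e + 1 := Nat.succ_pos _
  generalize ∑ e, ε e + 1 = j at h7 h8 h9
  choose δ hδ using fun e => Int.eq_ofNat_of_zero_le (sub_nonneg.2 (hg' e).1)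
  refine kv_mod b (L := r • (j • N + h) + r • pr ℂ t) hγ (h7.add ((BD.free_pr t).nsmul r))
    ((((hB.nsmul h9).add_eff hh.eff).nsmul hr).add_eff ((BD.free_pr t).nsmul r).eff)
    (q := r * (j + m₀) * q) (c := fun e => r * (j + m₀) * δ e + r * ε e) (fun e => ?_)
    (by positivity) ?_ hu
  · have h10 : δ e + 1 ≤ q := by
      have := (hg' e).2
      have := hδ e
      omega
    calc r * (j + m₀) * δ e + r * ε e < r * (j + m₀) * δ e + r * (j + m₀) :=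
          Nat.add_lt_add_left (Nat.mul_lt_mul_of_pos_left ((h8 e).trans_le (Nat.le_add_right _ _))
            hr) _
      _ ≤ r * (j + m₀) * q := by rw [← mul_add_one]; exact Nat.mul_le_mul_left _ h10
  · have h10 : q • dvs C g = N + dvs C fun e => δ e := by
      rw [h4, ← dvs_nsmul, ← dvs_add]
      congr 1
      funext e
      rw [Pi.smul_apply, Pi.add_apply, ← hδ e, nsmul_eq_mul, add_sub_cancel]
    have h11 : (dvs C fun e => ((r * (j + m₀) * δ e + r * ε e : ℕ) : ℤ)) =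
        (r * (j + m₀)) • (dvs C fun e => δ e) + r • dvs C fun e => ε e := by
      rw [← dvs_nsmul, ← dvs_nsmul, ← dvs_add]
      congr 1
    rw [h11, ← h6, smul_add, smul_add, mul_smul _ q (dvs C g), h10]
    module

variable {C : Bd Q n}

/-- a point on exactly the given components -/
theorem exists_exact (C : Bd Q n) {S : Set C.ι} {y : Pts Q} (hy : ∀ e ∈ S, On (C.v e) y) :
    ∃ y' : Pts Q, ∀ e, On (C.v e) y' ↔ e ∈ S := by
  obtain ⟨b⟩ := C.exists_basis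
  obtain ⟨X, c, a⟩ := exists_adB C b
  obtain ⟨y', h⟩ := (Lcx.snc_freq_set a.isHS_sE (a.snc b) (S := S) (x := y)
    fun e he => (a.sE_eq_zero (mem_ci y)).2 (hy e he)).exists
  exact ⟨y', fun e => (a.sE_eq_zero (mem_ci y')).symm.trans (h e)⟩

variable {E : Type} [Field E] [Algebra ℂ E]

theorem pl_r (p : Plc ℂ F E) (f : F) : (pl p).r f = p.r f := by
  by_cases h : p.v f ≤ 1
  · exact ((pl p).r_eq h).trans (p.r_eq h).symm
  · rw [Plc.r, dif_neg h]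
    exact dif_neg h

theorem pl_v (p : Plc ℂ F E) {f : F} : (pl p).V.v f = 1 ↔ p.v f = 1 := by
  rw [← map_one (pl p).V.v, ← map_one p.v]
  exact BD.v_rz_eq_iff p.v p.triv

/-- a valuation ring through the place which dominates a point -/
theorem exists_cm (p : Plc ℂ F E) {y : Pts Q} (hy : On p.v y) : ∃ W : RZ ℂ E,
    Ov y ((pl p).cm W).1 ∧ ∀ f ∈ (lp y).O, ev f y = 0 → ((pl p).cm W).v f < 1 := by
  have : (lp y).mx.IsPrime := RingHom.ker_isPrime _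
  let ρ : (lp y).O →+* E := p.ρ.comp (((lp y).O.val : (lp y).O →+* F).codRestrict p.v.integer
    fun f => hy f.1 f.2)
  have hρ : ∀ f : (lp y).O, ρ f = p.r f := fun f => (p.r_eq (hy f.1 f.2)).symm
  obtain ⟨W, h1, h2⟩ := Cns.exists_val ρ (lp y).mx fun f hf =>
    hy.ev_eq ((p.r_eq_zero (hy f.1 f.2)).1 (hρ f ▸ hf))
  have h3 : Ov y ((pl p).cm ⟨W, fun c => by
      rw [← p.r_alg, ← hρ ⟨_, algebraMap_mem _ c⟩]
      exact h1 _⟩).1 := fun f hf => ⟨hy f hf, by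
    rw [pl_r, ← hρ ⟨f, hf⟩]
    exact h1 _⟩
  refine ⟨_, h3, fun f hf h0 => lt_of_le_of_ne (RZ.le_one_iff.2 (h3 f hf)) fun h4 => ?_⟩
  have h5 := Cns.un_iff_val.2 h4
  have h6 : p.v f = 1 := le_antisymm (hy f hf) (by
    have h7 : p.v f⁻¹ ≤ 1 := h5.2.2.1
    rwa [map_inv₀, inv_le_one₀ (v_pos h5.1)] at h7)
  refine (h2 ⟨f, hf⟩).1 ⟨hρ _ ▸ p.r_ne_zero h6, h1 _, ?_⟩ h0
  rw [hρ, ← p.r_inv h6, ← pl_r]
  exact h5.2.2.2

/-- the test for a coefficient -/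
theorem test {e₁ e₂ : C.ι} {y : Pts Q}
    (hy : ∀ e, On (C.v e) y ↔ e ∈ ({e₁, e₂} : Set C.ι)) {V : RZ ℂ F} (hV : Ov y V.1)
    (hd : ∀ f ∈ (lp y).O, ev f y = 0 → V.v f < 1) {m : C.ι → ℤ} (h1 : m e₁ = 0)
    (h : 1 ≤ (dvs C m).val V) : 0 ≤ m e₂ := by
  have h2 := hd _ (C.τ_mem e₂ y) (Bd.on_iff.1 ((hy e₂).2 (by simp)))
  rw [← at_dvs C m y V hV, Bd.mon, Finset.prod_eq_single e₂, map_inv₀, map_zpow₀,
    one_le_inv₀ (zpow_pos (RZ.pos (C.τ_ne e₂ y)) _)] at h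
  · exact (zpow_le_one_iff_right_of_lt_one₀ (RZ.pos (C.τ_ne e₂ y)) h2).1 h
  · intro e _ he
    by_cases h3 : e = e₁
    · rw [h3, h1, zpow_zero]
    · rw [C.off e y (fun h4 => by simpa [he, h3] using (hy e).1 h4), one_zpow]
  · simp

theorem mem_cm_of_lt (p : Plc ℂ F E) (W : RZ ℂ E) {f : F} (h : p.v f < 1) :
    ((pl p).cm W).v f ≤ 1 := RZ.le_one_iff.2 ⟨h.le, by
  rw [pl_r, p.r_of_lt h]
  exact zero_mem _⟩

variable {B : Bd P n} {e : B.ι} {e₁ e₂ : C.ι}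

open Classical in
/-- the Jacobian along the strict transform -/
theorem v_jac_le (b : Module.Basis (Fin n) F Ω[F⁄ℂ]) (h : IsoOff P C) (he : C.v e₁ = B.v e)
    {y : Pts Q} (hy : On (C.v e₁) y) {V : RZ ℂ F} (hV : Ov y V.1)
    (hl : ∀ f, C.v e₁ f < 1 → V.v f ≤ 1) :
    1 ≤ (kP Q b - kP P b - dvs B (Pi.single e 1) + dvs C (Pi.single e₁ 1)).val V := by
  have hx : On (B.v e) (h.mor.map y) := he ▸ h.on_map hy
  obtain ⟨z, σ, hz, -, h1⟩ := B.snc (h.mor.map y)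
  have h2 := crd_of_coords hz
  obtain ⟨t, ht⟩ := exists_crd b y
  have h3 := (((BD.Br.at_kP b ht).sub (at_map h (BD.Br.at_kP b h2))).sub
    (at_map h (at_dvs B (Pi.single e 1) _))).add (at_dvs C (Pi.single e₁ 1) y)
  rw [← h3 V hV, mon_single, mon_single]
  have h4 := h.le y (B.τ_mem e _)
  have h5 : C.v e₁ (B.τ e (h.mor.map y)) = exp (-1 : ℤ) := he ▸ B.unif e _ hx
  have h6 := Bd.div_mem hy h4 (h5 ▸ exp_neg_one_lt)
  have h7 : C.v e₁ (B.τ e (h.mor.map y) / C.τ e₁ y) = 1 := by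
    rw [map_div₀, h5, C.unif e₁ y hy, div_self exp_ne_zero]
  have h8 := C.τ_ne e₁ y
  have hz0 := h2.jac_ne (lp_fin _) b
  have ht0 := ht.jac_ne (lp_fin _) b
  have h9 := AN.G1.pd_self hz0 (σ ⟨e, hx⟩) (σ ⟨e, hx⟩)
  rw [if_pos rfl, ← h1 ⟨e, hx⟩, ← div_mul_cancel₀ (B.τ e (h.mor.map y)) h8, pd_mul hz0] at h9
  rw [div_inv_eq_mul, mul_assoc, ← div_eq_mul_inv]
  generalize B.τ e (h.mor.map y) / C.τ e₁ y = w at h6 h7 h9
  have hw := ne_of_v_one h7
  have h10 : ∀ f ∈ (lp y).O, V.v (jac b (Function.update z (σ ⟨e, hx⟩) f) / jac b t) ≤ 1 :=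
    fun f hf => RZ.le_one_iff.2 (hV _ (ht.jac_div_mem (lp_fin y) b fun l => by
      by_cases h11 : l = σ ⟨e, hx⟩
      · rwa [h11, Function.update_self]
      · rw [Function.update_of_ne h11]
        exact h.le y (h2.mem l)))
  have h11 : (jac b t / jac b z * w)⁻¹ =
      jac b (Function.update z (σ ⟨e, hx⟩) (C.τ e₁ y)) / jac b t +
        C.τ e₁ y / w * (jac b (Function.update z (σ ⟨e, hx⟩) w) / jac b t) := by
    unfold AN.G1.pd at h9
    field_simp at h9 ⊢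
    linear_combination -h9
  rw [← inv_le_one₀ (RZ.pos (mul_ne_zero (div_ne_zero ht0 hz0) hw)), ← map_inv₀, h11]
  refine V.v.map_add_le (h10 _ (C.τ_mem e₁ y)) ?_
  rw [map_mul]
  refine mul_le_one' (hl _ ?_) (h10 _ h6)
  rw [map_div₀, h7, div_one]
  exact Bd.v_τ_lt hy

open Classical in
/-- **the lifting lemma** for nef and big `N` -/
theorem kvl_nef {P : PModel ℂ F} {B : Bd P (n + 1)} {b : Module.Basis (Fin (n + 1)) F Ω[F⁄ℂ]}
    {e : B.ι} (p : Plc ℂ F E) (hp : p.v = B.v e) (hK : od B e (kP P b) = -1) {D N : BD ℂ F} {q : ℕ}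
    {φ : B.ι → ℤ} (hD : D ∈ BD.Br.On P) (hN : Nef N) (hB : Big N) (hq : 0 < q)
    (hφ : ∀ e₁, 0 ≤ φ e₁ ∧ φ e₁ < q) (h0 : φ e = 0) (hN0 : od B e N = 0)
    (hle : q • (kP P b + dvs B (Pi.single e 1)) + N ≤ q • D) {s' : E}
    (hs : s' ^ q ∈ ((pl p).res (q • (kP P b + dvs B (Pi.single e 1)) + N + dvs B φ)).Sec) :
    ∃ s ∈ D.Sec, p.v s ≤ 1 ∧ p.r s = s' := by
  rcases eq_or_ne s' 0 with rfl | hs0
  · exact ⟨0, zero_mem _, by simp, p.r_zero⟩
  obtain ⟨u, hu, rfl⟩ := p.exists_r s'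
  have hu1 := p.v_eq_one hu hs0
  have hu0 := ne_of_v_one hu1
  obtain ⟨Q, C, hi, -, h1, h2, H⟩ := exists_kv B b hN hB ∅ fun _ : Unit => kP P b - pr ℂ u
  replace h1 := h1 ()
  obtain ⟨e₁, he⟩ := hi.lab e
  obtain ⟨k, hk⟩ : ∃ k, k = fun e => od C e (kP P b - pr ℂ u) := ⟨_, rfl⟩
  obtain ⟨ν, hν⟩ : ∃ ν, ν = fun e => od C e N := ⟨_, rfl⟩
  have hk1 : k e₁ = -1 := by
    rw [congrFun hk e₁, od_congr he, map_sub, hK, od_pr hu0, ← hp, ord_eq_zero hu1, neg_zero, sub_zero]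
  have hν1 : ν e₁ = 0 := by rw [congrFun hν e₁, od_congr he, hN0]
  have hκ1 : kap b hi.iso e₁ = 0 := (exc_kap b hi.iso).2 e₁ (he ▸ B.isPD e)
  rw [← hk] at h1
  rw [← hν] at h2
  have hq' : (0 : ℤ) < q := Int.natCast_pos.2 hq
  obtain ⟨g, hg⟩ : ∃ g : C.ι → ℤ, ∀ e, ν e ≤ q * g e ∧ q * g e < ν e + q :=
    ⟨fun e => (ν e + q - 1) / q, fun e => by
      have := Int.mul_ediv_add_emod (ν e + q - 1) q
      have := Int.emod_nonneg (ν e + q - 1) hq'.ne'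
      have := Int.emod_lt_of_pos (ν e + q - 1) hq'
      dsimp only
      omega⟩
  have hg1 : g e₁ = 0 := by
    have h3 := hg e₁
    rw [hν1, zero_add] at h3
    have h4 : 0 ≤ g e₁ := nonneg_of_mul_nonneg_right h3.1 hq'
    have h5 : g e₁ < 1 := lt_of_mul_lt_mul_left (by simpa using h3.2) hq'.le
    omega
  have hT : (fun e => if e ∈ ({e₁} : Finset C.ι) then (1 : ℤ) else 0) = Pi.single e₁ 1 :=
    funext fun e => by simp [Pi.single_apply]
  have hG : kP Q b + dvs C g + dvs C (Pi.single e₁ 1) =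
      pr ℂ u + dvs C (k + kap b hi.iso + g + Pi.single e₁ 1) := by
    rw [dvs_add, dvs_add, dvs_add, ← h1, kP_up b hi.iso]
    abel
  obtain ⟨m, hm⟩ : ∃ m, m = k + kap b hi.iso + g + Pi.single e₁ 1 := ⟨_, rfl⟩
  have hm1 : m e₁ = 0 := by simp [hm, hk1, hκ1, hg1]
  have hA : (q • (kP P b + dvs B (Pi.single e 1)) + N + dvs B φ).val (pl p).V = 1 := by
    refine BD.ord_eq_zero.1 ((ord_eq_od hp.symm p.triv _).trans ?_)
    simp [hK, hN0, h0]
  have hm2 : ∀ y : Pts Q, On (C.v e₁) y → ∀ e₂, On (C.v e₂) y → 0 ≤ m e₂ := by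
    intro y hy e₂ hy₂
    rcases eq_or_ne e₂ e₁ with rfl | hne
    · exact hm1.ge
    obtain ⟨y', hy'⟩ := exists_exact C (S := {e₁, e₂}) (y := y) (by
      rintro e (rfl | rfl) <;> assumption)
    have h3 : On (C.v e₁) y' := (hy' e₁).2 (by simp)
    obtain ⟨W, hV, hd⟩ := exists_cm p (y := y') (by rwa [hp, ← he])
    have h4 := v_jac_le b hi.iso he h3 hV fun f hf => mem_cm_of_lt p W (by rwa [hp, ← he])
    rw [kP_up b hi.iso, add_sub_cancel_left, hi.dvs_eq, ← dvs_sub, ← dvs_add] at h4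
    have h5 := test hy' hV hd (by simp [hκ1, pbc_lab he]) h4
    have h6 : 1 ≤ (dvs C (q • (k + mu B C e) + ν + pbc B C φ)).val ((pl p).cm W) := by
      have h7 := BD.v_gen (q • (kP P b + dvs B (Pi.single e 1)) + N + dvs B φ) ((pl p).cm W)
      have h8 := hs W
      rw [Pl.val_res hA h7, ← p.r_pow hu, ← pl_r, ← Pl.v_le_iff
        (show u ^ q ∈ (pl p).V.1 from p.v_pow_le hu q) (Pl.unit_of_gen hA h7), h7] at h8
      rw [dvs_add, dvs_add, dvs_nsmul, dvs_add, ← h1, ← h2, ← hi.dvs_eq, mu, ← hi.dvs_eq,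
        show q • (kP P b - pr ℂ u + dvs B (Pi.single e 1)) + N + dvs B φ =
          q • (kP P b + dvs B (Pi.single e 1)) + N + dvs B φ - q • pr ℂ u by module,
        BD.val_sub, one_le_div₀ (BD.val_pos _ _), BD.val_nsmul, BD.val_pr hu0, ← map_pow]
      exact h8
    have h7 := test hy' hV hd (by simp [hk1, hν1, mu, pbc_lab he, h0]) h6
    have h8 := sum_mu_le b hi.iso B e₂
    have h9 : pbc B C φ e₂ ≤ (q - 1) * (∑ e', mu B C e' e₂ - mu B C e e₂) := by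
      rw [pbc_eq_sum, ← Finset.add_sum_erase _ _ (Finset.mem_univ e), h0, zero_mul, zero_add,
        ← Finset.add_sum_erase _ _ (Finset.mem_univ e), add_sub_cancel_left, Finset.mul_sum]
      exact Finset.sum_le_sum fun e' _ => mul_le_mul_of_nonneg_right
        (by have := (hφ e').2; omega) (mu_nonneg e' e₂)
    have h10 := (hg e₂).1
    simp only [Pi.add_apply, Pi.sub_apply, Pi.single_eq_of_ne hne, add_zero, hm] at h5 h7 ⊢
    change 0 ≤ _ - mu B C e e₂ at h5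
    rw [Pi.smul_apply, Pi.add_apply, nsmul_eq_mul] at h7
    by_contra h11
    have h12 := mul_le_mul_of_nonneg_left (show k e₂ + kap b hi.iso e₂ + g e₂ ≤ -1 by omega) hq'.le
    have h13 := mul_le_mul_of_nonneg_left (sub_le_sub_right h8 (mu B C e e₂))
      (show (0 : ℤ) ≤ q - 1 by omega)
    linarith
  have hγ : ∀ x, At (kP Q b + dvs C g + dvs C (Pi.single e₁ 1)) x (u * (C.mon x m)⁻¹) := fun x => by
    rw [hG, ← hm]
    exact (BD.Br.at_pr x hu0).add (at_dvs C m x)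
  obtain ⟨f, hf, h3⟩ := H q g {e₁} (fun x => u * (C.mon x m)⁻¹) (fun _ _ => u) hq
    (fun e => congrFun hν e ▸ hg e) (hT ▸ hγ) ⟨fun e' he' x hx => by
      rw [Finset.mem_singleton.1 he'] at hx
      rw [← div_div, div_self hu0, one_div, inv_inv]
      exact Bd.mon_mem (hm2 x hx), fun _ _ _ _ _ _ => by simp, fun _ _ _ _ _ _ _ => rfl⟩
  rw [hT] at hf
  obtain ⟨x, hx⟩ := C.ne e₁
  have h4 := h3 e₁ (Finset.mem_singleton_self _) x hx
  have h5 : C.v e₁ (u * (C.mon x m)⁻¹) = 1 := by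
    rw [← vl_of_at (hγ x) hx, vl_eq_one_iff, hG, ← hm, map_add, od_dvs, hm1, od_pr hu0, he, ← hp,
      ord_eq_zero hu1, neg_zero, add_zero]
  rw [map_div₀, h5, div_one, he, ← hp] at h4
  have h6 : p.v f ≤ 1 := by
    rw [← sub_add_cancel f u]
    exact p.v_add_le h4.le hu
  refine ⟨f, sec_le_of_pd hD (fun v hv => ?_) hf, h6, (p.r_eq_r h6 hu).2 h4⟩
  have h7 := BD.ord_mono (v := v) (hv := hv.triv) hle
  rw [kP_up b hi.iso]
  simp only [map_add, map_nsmul, nsmul_eq_mul] at h7 ⊢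
  rw [ord_dvs_pd hi.iso (exc_kap b hi.iso).2 hv, add_zero]
  rw [h2, hi.dvs_eq] at h7
  by_cases h8 : ∃ e', C.v e' = v
  · obtain ⟨e', h8⟩ := h8
    simp only [ord_eq_od h8, od_dvs] at h7 ⊢
    have h9 : (Pi.single e₁ 1 : C.ι → ℤ) e' ≤ pbc B C (Pi.single e 1) e' := by
      by_cases h9 : e' = e₁
      · rw [h9, pbc_lab he, Pi.single_eq_same, Pi.single_eq_same]
      · rw [Pi.single_eq_of_ne h9]
        exact mu_nonneg e e'
    have h10 := (hg e').2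
    by_contra h11
    nlinarith
  · simp only [show ∀ c, BD.ord v hv.triv (dvs C c) = 0 from
      ord_dvs_of_ne (Up.isPD_up hi.iso hv) (not_exists.1 h8), add_zero] at h7 ⊢
    exact le_of_mul_le_mul_left h7 hq'

/-- **the lifting lemma** -/
theorem kvl (n : ℕ) : KVL n := by
  classical
  intro F _ _ P B b e E _ _ Φ D N q φ hD hN hB hq hφ h0 _ hN0 hle s' hs
  have h1 : ∀ a, od B e a = 0 → a.val (pl Φ.p).V = 1 := fun a ha =>
    BD.ord_eq_zero.1 ((ord_eq_od Φ.v_eq.symm Φ.p.triv _).trans ha)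
  have h2 : od B e (kP P b + dvs B (Pi.single e 1)) = 0 := by simp [Φ.od_K]
  rw [← Φ.res_K, ← Φ.res_dvs φ h0, ← Pl.res_nsmul (h1 _ h2),
    ← Pl.res_add (h1 _ (by rw [map_nsmul, h2, smul_zero])) (h1 _ hN0),
    ← Pl.res_add (h1 _ (by rw [map_add, map_nsmul, h2, smul_zero, hN0, add_zero]))
      (h1 _ (by rw [od_dvs, h0]))] at hs
  obtain ⟨s, h3, -, h4⟩ := kvl_nef Φ.p Φ.v_eq Φ.od_K hD hN.nef hB hq hφ h0 hN0 hle hs
  exact ⟨s, h3, h4⟩

end Crest.Agent.X262.KV
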