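import Crest.Agent.X277.AN.ExtF
import Crest.Agent.X277.AN.G1Nef
import Crest.Agent.X277.AN.HLg

/-!
# Row 262, KV (helper68), part 1: Kawamata-Viehweg lifting on a projective manifold

* `injH_kv` : injectivity for `q N = q K + ∑ c E + L`, `c < q`, `L` generated and big;
* `ext_kv`  : data which are holomorphic on every branch of `T` extend to sections of `G`,
  `q G = q K + ∑ c E + q T + L`.
-/

set_option autoImplicit false
set_option linter.unusedSectionVars false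

open Set Filter Topology Complex MeasureTheory
open scoped ContDiff Matrix ComplexConjugate ComplexOrder ENNReal

namespace Crest.Agent.X262.KV

open Crest.Agent.R275.Geo Crest.Agent.R275.Core144
open Crest.Agent.R273.Defs_333 Crest.Agent.R273.HM_333 Crest.Agent.R273.Kah_333
open Crest.Agent.R273.Vm_333
open Crest.Agent.R273.SerA_945 (Fn SmS)
open Crest.Agent.R273.GreenM_5 (ci mem_ci)
open Crest.Agent.R273.SteinC_794 (nz mem_nz isOpen_nz)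
open Crest.Agent.X277.AN Crest.Agent.X277.AN.Horm

noncomputable section

variable {n : ℕ} {M : Type} [TopologicalSpace M] {A : Atl n M}
variable {κ : Type} [Fintype κ] {E : κ → LB A} {t : κ → Fn A}

/-- data which extend locally from every branch extend locally from the union -/
theorem exists_loc (ht : ∀ e, IsHS (E e) univ (t e)) (hn : SNC t) {T : Finset κ} {N : LB A}
    {φ : Fn A} (H : ∀ k ∈ T, ∀ x, t k (ci A x) x = 0 → ∃ (W : Set M) (σ : Fn A), IsOpen W ∧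
      x ∈ W ∧ IsHS N W σ ∧ ∀ i, ∀ y ∈ (A.e i).source, y ∈ W → t k i y = 0 → σ i y = φ i y)
    {x : M} {k : κ} (hk : k ∈ T) (hx : t k (ci A x) x = 0) :
    ∃ (W : Set M) (σ : Fn A), IsOpen W ∧ x ∈ W ∧ IsHS N W σ ∧
      ∀ y ∈ W, ∀ e ∈ T, t e (ci A y) y = 0 → σ (ci A y) y = φ (ci A y) y := by
  have h1 : ∀ y, oneS A (ci A y) y ≠ 0 := fun y => by simp [oneS, mem_ci y]
  have hz : ∀ {i y}, y ∈ (A.e i).source →
      (((∏ e ∈ T, t e) * oneS A) i y = 0 ↔ ∃ e ∈ T, t e i y = 0) := fun hy =>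
    HL.snc_zero_iff T (isHS_oneS univ) h1 hy
  obtain ⟨W, σ, h2, h3, h4, h5⟩ := (HL.brHol_of_snc ht hn T (isHS_oneS univ) h1 H).exists_loc
    (L := N) ((isHS_prod_ne ⟨k, hk⟩ fun e _ => ht e).mul (isHS_oneS univ))
    (fun i j y hy h0 => by
      obtain ⟨e, he, h2⟩ := (hz hy.1).1 h0
      obtain ⟨W, σ, -, w2, w3, w4⟩ :=
        H e he y (((ht e).zero_iff ⟨mem_ci y, hy.1⟩ (mem_univ y)).2 h2)
      rw [← w4 i y hy.1 w2 h2, ← w4 j y hy.2 w2 (((ht e).zero_iff hy (mem_univ y)).1 h2),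
        w3.tr i j y hy w2])
    ((hz (mem_ci x)).2 ⟨k, hk, hx⟩)
  exact ⟨W, σ, h2, h3, h4, fun y hy e he h0 =>
    h5 _ y (mem_ci y) hy ((hz (mem_ci y)).2 ⟨e, he, h0⟩)⟩

variable [MeasurableSpace M] [T2Space M] [CompactSpace M] [BorelSpace M] [Finite A.ι]

/-- **injectivity** for `q N = q K + ∑ c E + L` -/
theorem injH_kv (P : Part A) (K : Kah A) (hV : HM (KB A)⁻¹) (ht : ∀ e, IsHS (E e) univ (t e))
    (hn : SNC t) {N L : LB A} (hg : Gen L) {q : ℕ} (hq : 0 < q) {c : κ → ℕ} (hc : ∀ e, c e < q)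
    {w : Fn A} (hw : IsHS (KB A ^ q * (∏ e, E e ^ c e) * L * (N ^ q)⁻¹) univ w)
    (hw0 : ∀ x, w (ci A x) x ≠ 0) {T : Finset κ} (hT : T.Nonempty) {d : ℕ} (hd : 0 < d)
    {τ : Fn A} (hτ : IsHS (L ^ d) univ τ) (hτ0 : vm hV (nz τ)ᶜ = 0)
    (hτT : ∀ x, ∀ e ∈ T, t e (ci A x) x = 0 → τ (ci A x) x = 0) :
    InjH N (∏ e ∈ T, E e) (∏ e ∈ T, t e) := by
  classical
  have := isFinite_vm hV
  have hq' : (0 : ℝ) < q := Nat.cast_pos.2 hq
  have h : ∀ e, HM (E e) := fun e => (exists_hm P (E e)).some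
  obtain ⟨hL, hL0⟩ := G1N.Gen.exists_nn hg (exists_hm P L).some
  obtain ⟨hN⟩ := exists_hm P N
  obtain ⟨hT'⟩ := exists_hm P (∏ e ∈ T, E e)
  obtain ⟨hK, hK'⟩ := exists_hm_cast (inv_inv (KB A)) (inv hV)
  obtain ⟨Hc, -, hu⟩ := exists_prodHM Finset.univ fun e => pow (h e) (c e)
  obtain ⟨φ, hφ, h3⟩ := exists_pot_one (mul (mul (mul (pow hK q) Hc) hL) (inv (pow hN q))) hw hw0
  refine injH_mc' P K hV hN hT' (isHS_prod_ne hT fun e _ => ht e)
    (thB := ∑ e, ((c e : ℝ) / q) • cur (h e)) (th := cur hL) (a := 1 / q) (by positivity)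
    (sm_cmul (-(1 / q)) hφ) (fun i x hx ξ => ?_)
    (klt_snc hV h ht hn (fun e => by positivity) fun e => ?_) (mc_of_nn hL0 (nn_kah K))
    (subW_of_vanish K hV ht hn hT hT' hL hd hτ hτ0 hτT)
  · have h4 := h3 i x hx ξ
    have h5 : qf (cur hK i x) ξ = -qf (cur hV i x) ξ := by
      rw [← qf_cur_inv hV hx, cur_congr (h := hK) (h' := inv hV) hx fun y _ => by rw [hK']]
    rw [qf_cur_mul _ _ hx, qf_cur_mul _ _ hx, qf_cur_mul _ _ hx, qf_cur_inv _ hx,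
      qf_cur_pow _ _ hx, qf_cur_pow _ _ hx, hu i x hx, h5] at h4
    rw [qh_cmul _ hφ hx, qf_sum_smul]
    simp only [qf_cur_pow _ _ hx] at h4
    have h6 : ∑ e, (c e : ℝ) / q * qf (cur (h e) i x) ξ =
        (1 / q) * ∑ e, (c e : ℝ) * qf (cur (h e) i x) ξ := by
      rw [Finset.mul_sum]
      exact Finset.sum_congr rfl fun e _ => by ring
    rw [h6]
    refine le_of_eq ?_
    field_simp
    linear_combination h4
  · rw [div_lt_one hq']
    exact_mod_cast hc e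

/-- **lifting** for `q G = q K + ∑ c E + q T + L` -/
theorem ext_kv [ConnectedSpace M] (P : Part A) (K : Kah A) (ht : ∀ e, IsHS (E e) univ (t e))
    (hn : SNC t) {G L : LB A} (hg : Gen L) {q : ℕ} (hq : 0 < q) {c : κ → ℕ} (hc : ∀ e, c e < q)
    {T : Finset κ} {w : Fn A}
    (hw : IsHS (KB A ^ q * (∏ e, E e ^ c e) * (∏ e ∈ T, E e) ^ q * L * (G ^ q)⁻¹) univ w)
    (hw0 : ∀ x, w (ci A x) x ≠ 0) {d : ℕ} (hd : 0 < d) {τ : Fn A} (hτ : IsHS (L ^ d) univ τ)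
    (hτ0 : ∃ i, ∃ x ∈ (A.e i).source, τ i x ≠ 0)
    (hτT : ∀ x, ∀ e ∈ T, t e (ci A x) x = 0 → τ (ci A x) x = 0) {φ : Fn A}
    (hφ : ∀ k ∈ T, ∀ x, t k (ci A x) x = 0 → ∃ (W : Set M) (σ : Fn A), IsOpen W ∧ x ∈ W ∧
      IsHS G W σ ∧ ∀ i, ∀ y ∈ (A.e i).source, y ∈ W → t k i y = 0 → σ i y = φ i y) :
    ∃ F, IsHS G univ F ∧ ∀ y, ∀ e ∈ T, t e (ci A y) y = 0 → F (ci A y) y = φ (ci A y) y := by
  obtain ⟨hV⟩ := exists_hm P (KB A)⁻¹
  choose W σ hW hx hσ he using fun x : {x : M // ∃ k ∈ T, t k (ci A x) x = 0} =>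
    exists_loc ht hn hφ x.2.choose_spec.1 x.2.choose_spec.2
  have e1 : KB A ^ q * (∏ e, E e ^ c e) * L * ((G * (∏ e ∈ T, E e)⁻¹) ^ q)⁻¹ =
      KB A ^ q * (∏ e, E e ^ c e) * (∏ e ∈ T, E e) ^ q * L * (G ^ q)⁻¹ := by
    rw [mul_pow, mul_inv, inv_pow, inv_inv]
    simp only [mul_assoc, mul_comm, mul_left_comm]
  obtain ⟨F, hF, h3⟩ := ext_snc hV ht hn (N := G * (∏ e ∈ T, E e)⁻¹)
    (fun hT => injH_kv P K hV ht hn hg hq hc (by rwa [e1]) hw0 hT hd hτ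
      (R273.SteinL_794.null_nz hV hτ hτ0) hτT) hW
    (fun x e h4 h5 => ⟨⟨x, e, h4, h5⟩, hx _⟩) (σ := σ)
    (fun k => by rw [inv_mul_cancel_right]; exact hσ k) fun k l x hk hl e h4 h5 => by
      rw [he k x hk e h4 h5, he l x hl e h4 h5]
  rw [inv_mul_cancel_right] at hF
  exact ⟨F, hF, fun y e h4 h5 =>
    (h3 ⟨y, e, h4, h5⟩ y (hx _) _ (mem_ci y) e h4 h5).trans (he ⟨y, e, h4, h5⟩ y (hx _) e h4 h5)⟩

end

end Crest.Agent.X262.KV
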