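import Crest.Agent.X262.KV.Srf

/-!
# Row 262, KV (helper68), part 5: curves on surfaces

* `exists_curve` : a free and ample class on a surface has a smooth irreducible member;
* `bnum_res`     : `x · C = deg (x|C)`;
* `rr_curve`, `rr_fc` : Riemann-Roch on a curve;
* `h0_le_res`, `Surj`, `surj_of_nef`, `le_h0_res`, `h0_eq_res` : the restriction sequence.
-/

set_option autoImplicit false

open WithZero Filter Module
open scoped KaehlerDifferential

noncomputable section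

namespace Crest.Agent.X262.KV

open Crest.Agent.X277 Crest.Agent.X277.Lef Crest.Agent.X277.AN.G1 Crest.Agent.X277.BD
open Crest.Agent.X277.BD.Br (At oP kP)
open Crest.Agent.X277.Res.Log (Bd On un_iff)
open Crest.Agent.X277.Link (Plc IsPD)
open Crest.Agent.X262.FG Crest.Agent.X262.FG.Prm5
open Crest.Agent.X262.Surf (h0 B2)

variable {F E : Type} [Field F] [Algebra ℂ F] [Field E] [Algebra ℂ E] {P : PModel ℂ F} {n : ℕ}
  {D a x : BD ℂ F}

theorem amp_nef (h : Amp P a) : Nef a := by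
  obtain ⟨m, hm⟩ := h.semi
  exact Nef.of_nsmul m.succ_pos (hm _ m.le_succ).nef

theorem lin_sub_pr (a : BD ℂ F) {g : F} (hg : g ≠ 0) : Lin (a - pr ℂ g) a :=
  ⟨g⁻¹, inv_ne_zero hg, by rw [pr_inv, sub_eq_add_neg]⟩

/-- every section of the restriction of `D` lifts -/
def Surj (p : Plc ℂ F E) (D : BD ℂ F) : Prop :=
  ∀ s' ∈ ((pl p).res D).Sec, ∃ s ∈ D.Sec, p.v s ≤ 1 ∧ p.r s = s'

open Classical in
/-- **S4, surjectivity** by vanishing -/
theorem surj_of_nef {B : Bd P (n + 1)} {b : Basis (Fin (n + 1)) F Ω[F⁄ℂ]} {e : B.ι}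
    (Φ : Fc B b e E) (hD : D ∈ Br.On P) (h0 : od B e D = 0)
    (hN : Nef (D - kP P b - dvs B (Pi.single e 1)))
    (hB : Big (D - kP P b - dvs B (Pi.single e 1))) : Surj Φ.p D := fun s' hs' => by
  have h1 : kP P b + dvs B (Pi.single e 1) + (D - kP P b - dvs B (Pi.single e 1)) = D := by abel
  exact kvl_nef Φ.p Φ.v_eq Φ.od_K (q := 1) (φ := 0) hD hN hB one_pos (fun _ => by simp) rfl
    (by simp [h0, Φ.od_K]) (by rw [one_smul, one_smul, h1])
    (by rwa [pow_one, one_smul, dvs_zero, add_zero, h1])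

variable [Algebra.EssFiniteType ℂ F]

/-- **S3**, Riemann-Roch on a curve -/
theorem rr_curve (P : PModel ℂ F) (b : Basis (Fin 1) F Ω[F⁄ℂ]) (y : BD ℂ F) :
    2 * h0 y - 2 * h0 (kP P b - y) = 2 * bnum [y] - bnum [kP P b] := by
  have hd := dim_of_basis b
  have h1 := Loc.rr hd (der1_ne P b) y
  rw [h0, h0, kP_eq_kC, Loc.deg_kC hd (der1_ne P b)]
  omega

theorem h0_curve_neg {y : BD ℂ F} (hy : bnum [y] < 0) : h0 y = 0 := by
  by_contra h
  exact absurd ((eff_iff_finrank.2 (Nat.pos_of_ne_zero fun h1 => h (by rw [h0, h1]; rfl))).bnum_nonneg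
    (l := []) (by simp)) hy.not_ge

variable [Algebra.EssFiniteType ℂ E]

section Fc

variable {B : Bd P (n + 1)} {b : Basis (Fin (n + 1)) F Ω[F⁄ℂ]} {e : B.ι} (Φ : Fc B b e E)

open Classical in
/-- **S4, upper bound** -/
theorem h0_le_res (hD : D ∈ Br.On P) (h1 : od B e D = 0) :
    h0 D ≤ h0 (D - dvs B (Pi.single e 1)) + h0 ((pl Φ.p).res D) := by
  have h2 := finrank_res Φ.v_eq hD ((val_pl Φ.v_eq).2 h1)
  have h3 := Submodule.finrank_mono (range_resL_le (p := Φ.p) ((val_pl Φ.v_eq).2 h1))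
  unfold h0
  omega

omit [Algebra.EssFiniteType ℂ E] in
open Classical in
/-- **S4, lower bound** from surjectivity -/
theorem le_h0_res (hD : D ∈ Br.On P) (h1 : od B e D = 0) (hs : Surj Φ.p D) :
    h0 (D - dvs B (Pi.single e 1)) + h0 ((pl Φ.p).res D) ≤ h0 D := by
  have h2 := finrank_res Φ.v_eq hD ((val_pl Φ.v_eq).2 h1)
  have h3 : ((pl Φ.p).res D).Sec ≤ LinearMap.range (resL Φ.p ((val_pl Φ.v_eq).2 h1)) :=
    fun s' hs' => (hs s' hs').elim fun s h => ⟨⟨s, h.1⟩, h.2.2⟩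
  have h4 := Submodule.finrank_mono h3
  generalize finrank ℂ (LinearMap.range (resL Φ.p ((val_pl Φ.v_eq).2 h1))) = r at h2 h4
  unfold h0
  omega

open Classical in
theorem h0_eq_res (hD : D ∈ Br.On P) (h1 : od B e D = 0) (hs : Surj Φ.p D) :
    h0 D = h0 (D - dvs B (Pi.single e 1)) + h0 ((pl Φ.p).res D) :=
  le_antisymm (h0_le_res Φ hD h1) (le_h0_res Φ hD h1 hs)

end Fc

section Two

variable {B : Bd P 2} {b : B2 F} {e : B.ι} (Φ : Fc B b e E)

open Classical in
/-- **S2** -/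
theorem bnum_res (hx : x ∈ Br.On P) (h1 : od B e x = 0) :
    bnum [x, dvs B (Pi.single e 1)] = bnum [(pl Φ.p).res x] := by
  rw [bnum_swap, bnum_single Φ.v_eq (by simpa using hx)]
  exact (Pl.lin_rs_res ((val_pl Φ.v_eq).2 h1)).bnum_eq []

open Classical in
/-- adjunction -/
theorem bnum_adj : bnum [kP P b + dvs B (Pi.single e 1), dvs B (Pi.single e 1)] =
    bnum [kP Φ.P' Φ.b'] := by
  rw [bnum_res Φ (add_mem (Br.kP_mem b) (dvs_mem B _)) (by simp [Φ.od_K]), Φ.res_K]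

omit [Algebra.EssFiniteType ℂ F] in
/-- **S3** on the facet -/
theorem rr_fc (y : BD ℂ E) :
    2 * h0 y - 2 * h0 (kP Φ.P' Φ.b' - y) = 2 * bnum [y] - bnum [kP Φ.P' Φ.b'] :=
  rr_curve Φ.P' Φ.b' y

end Two

omit [Algebra.EssFiniteType ℂ E]

open Classical in
/-- ample classes are positive on curves -/
theorem bnum_amp_pos {B : Bd P 2} (e : B.ι) (ha : Amp P a) :
    0 < bnum [a, dvs B (Pi.single e 1)] := by
  obtain ⟨b', E, _, _, ⟨Φ⟩⟩ := facStmt F 1 P B e
  have := essFiniteType Φ.P'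
  obtain ⟨g, hg, h1⟩ := exists_od_zero B e a
  have h2 := Φ.res_amp _ (ha.sub_pr g) h1
  rw [← (lin_sub_pr a hg).bnum_eq, bnum_res Φ (ha.sub_pr g).1 h1]
  exact bnum_pos (dim_of_basis Φ.b').symm (by simpa using ⟨amp_nef h2, h2.big⟩)

open Classical in
/-- a general member of a free class whose components are positive is irreducible -/
theorem exists_curve' (b : B2 F) (ha : a ∈ Br.On P) (hf : Free a) (hB : Big a)
    (h : ∀ (B : Bd P 2) (e : B.ι), Eff (a - dvs B (Pi.single e 1)) →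
      0 < bnum [a, dvs B (Pi.single e 1)]) :
    ∃ (B : Bd P 2) (e : B.ι), Lin a (dvs B (Pi.single e 1)) := by
  obtain ⟨s, C, hs, h1, h2⟩ := exists_smooth b ha hf
  have h3 : Lin a (dvs C 1) := ⟨s, hs, by rw [← h1, sub_add_cancel]⟩
  have h4 : ∀ e e' : C.ι, e ≠ e' → bnum [dvs C (Pi.single e 1), dvs C (Pi.single e' 1)] = 0 :=
    fun e e' hne => bnum_disj e (fun x hx e₁ h₁ => Pi.single_eq_of_ne
      (fun h5 => hne ((h2 x e e₁ hx h₁).trans h5)) _) (by simp)
  have h5 : ∀ e : C.ι, 0 < bnum [dvs C (Pi.single e 1), dvs C (Pi.single e 1)] := fun e => by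
    have h6 := h C e ⟨s, Sec_mono (a := pr ℂ s) (by
      rw [le_sub_comm, h1]
      exact dvs_mono fun e' => by by_cases h : e' = e <;> simp [h]) (mem_Sec_pr s), hs⟩
    rwa [h3.bnum_eq, dvs_eq_sum, bnum_sum, Finset.sum_eq_single e (fun e' _ hne => by
      rw [bnum_zsmul, h4 e' e hne, mul_zero]) (by simp), Pi.one_apply, one_smul] at h6
  have h6 : 0 < bnum [a, a] :=
    bnum_pos (dim_of_basis b).symm (by simpa using ⟨hf.nef, hB⟩)
  rcases isEmpty_or_nonempty C.ι with h7 | ⟨⟨e⟩⟩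
  · rw [h3.bnum_eq, dvs_eq_sum, Finset.univ_eq_empty, Finset.sum_empty, bnum_zero] at h6
    exact absurd h6 (lt_irrefl _)
  refine ⟨C, e, ?_⟩
  convert h3
  funext e'
  by_contra h8
  have h9 : e ≠ e' := by
    rintro rfl
    exact h8 (by simp)
  have h10 := hi (Λ := []) (by simp) (h5 e) (dvs C (Pi.single e' 1))
  rw [h4 e e' h9] at h10
  nlinarith [mul_pos (h5 e) (h5 e')]

open Classical in
/-- **S1** -/
theorem exists_curve (b : B2 F) (hf : Free a) (ha : Amp P a) :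
    ∃ (B : Bd P 2) (e : B.ι), Lin a (dvs B (Pi.single e 1)) :=
  exists_curve' b ha.1 hf ha.big fun _ e _ => bnum_amp_pos e ha

end Crest.Agent.X262.KV
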