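import Crest.Agent.X262.KV.Qch
import Crest.Agent.X262.Noe83.Main
import Crest.Agent.X262.Int23.K3

/-!
# Row 262, G4 (helper68): no regular one-forms

* `irrQ_of` : `IrrQ` from Hodge symmetry.
-/

set_option autoImplicit false

open Module

namespace Crest.Agent.X262.KV

open Crest.Agent.X277 Crest.Agent.X277.AN.G1

theorem irrQ_of (hI : Lat.IrrStmt) : IrrQ := by
  intro F _ _ _ P b c hc h ω hω
  obtain ⟨X⟩ := nonempty_AnP (P := P) b
  have h1 := Noe83.chi_eq X hc
  have h2 := (hI F P b X).2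
  have := Int23.fin_R1 (Coh.sv P) b
  have h3 : finrank ℂ (Coh.sv P).R1 = 0 := by
    unfold Surf.h0 at h
    omega
  have h4 : ω ∈ (Coh.sv P).R1 := (Submodule.mem_iInf _).2 hω
  rwa [Submodule.finrank_eq_zero.1 h3] at h4

end Crest.Agent.X262.KV
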