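import Crest.Agent.X262.KV.Irr
import Crest.Agent.X262.Irr93.Bet

/-!
# Row 262, G4 (helper68): no regular one-forms, unconditional form
-/

set_option autoImplicit false

namespace Crest.Agent.X262.KV

theorem irrQ : IrrQ := irrQ_of Irr93.irrStmt

end Crest.Agent.X262.KV
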